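import Mathlib

/-!
# P271 / GEN, part 1: generic bases of the graded pieces of a chain of ideals

`R` Noetherian, `P` a prime, `b' ≤ b` ideals with `b / b'` killed by `P` and torsion free over
`R / P`.  Then after inverting one `g ∉ P` the module `b / b'` is free over `R / P`; elementary form.
-/

namespace Vale.Agent.P271.Gen

open Finset

variable {R : Type*} [CommRing R]

/-- `f` is a family in `b`, independent modulo `b'` over `R / P`. -/
def Indep (P b b' : Ideal R) {r : ℕ} (f : Fin r → R) : Prop :=
  (∀ j, f j ∈ b) ∧ ∀ a : Fin r → R, ∑ j, a j * f j ∈ b' → ∀ j, a j ∈ P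

theorem exists_indep_finset (P : Ideal R) [P.IsPrime] (b b' : Ideal R)
    (hP : ∀ p ∈ P, ∀ s ∈ b, p * s ∈ b') (U : Finset R) (hU : ∀ u ∈ U, u ∈ b) :
    ∃ (r : ℕ) (f : Fin r → R) (g : R), g ∉ P ∧ Indep P b b' f ∧
      ∀ u ∈ U, ∃ a : Fin r → R, g * u - ∑ j, a j * f j ∈ b' := by
  classical
  induction U using Finset.induction_on with
  | empty =>
    refine ⟨0, Fin.elim0, 1, ?_, ⟨fun j => j.elim0, fun a _ j => j.elim0⟩, ?_⟩
    · exact fun h => (Ideal.IsPrime.ne_top ‹P.IsPrime›) (Ideal.eq_top_of_unit_mem P 1 1 h (by simp))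
    · simp
  | insert u U hu ih =>
    obtain ⟨r, f, g, hg, ⟨hfb, hfi⟩, hd⟩ := ih (fun v hv => hU v (by simp [hv]))
    have hub : u ∈ b := hU u (by simp)
    by_cases hdep : ∃ (g' : R) (a : Fin r → R), g' ∉ P ∧ g' * u - ∑ j, a j * f j ∈ b'
    · obtain ⟨g', a, hg', ha⟩ := hdep
      refine ⟨r, f, g * g', ?_, ⟨hfb, hfi⟩, ?_⟩
      · intro h
        rcases (Ideal.IsPrime.mem_or_mem ‹P.IsPrime› h) with h | h
        · exact hg h
        · exact hg' h
      · intro v hv
        rcases Finset.mem_insert.1 hv with rfl | hv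
        · refine ⟨fun j => g * a j, ?_⟩
          have : g * g' * v - ∑ j, g * a j * f j = g * (g' * v - ∑ j, a j * f j) := by
            rw [mul_sub, Finset.mul_sum]
            congr 1
            · ring
            · exact Finset.sum_congr rfl fun j _ => by ring
          rw [this]
          exact Ideal.mul_mem_left _ _ ha
        · obtain ⟨c, hc⟩ := hd v hv
          refine ⟨fun j => g' * c j, ?_⟩
          have : g * g' * v - ∑ j, g' * c j * f j = g' * (g * v - ∑ j, c j * f j) := by
            rw [mul_sub, Finset.mul_sum]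
            congr 1
            · ring
            · exact Finset.sum_congr rfl fun j _ => by ring
          rw [this]
          exact Ideal.mul_mem_left _ _ hc
    · push Not at hdep
      refine ⟨r + 1, Fin.snoc f u, g, hg, ⟨?_, ?_⟩, ?_⟩
      · intro j
        refine Fin.lastCases ?_ (fun j => ?_) j
        · simpa using hub
        · simpa using hfb j
      · intro a ha
        rw [Fin.sum_univ_castSucc] at ha
        simp only [Fin.snoc_castSucc, Fin.snoc_last] at ha
        have hlast : a (Fin.last r) ∈ P := by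
          by_contra hcon
          refine hdep (a (Fin.last r)) (fun j => - a j.castSucc) hcon ?_
          convert ha using 1
          simp only [neg_mul, Finset.sum_neg_distrib, sub_neg_eq_add]
          ring
        have h2 : ∑ j : Fin r, a j.castSucc * f j ∈ b' := by
          have := b'.sub_mem ha (hP _ hlast u hub)
          simpa using this
        intro j
        refine Fin.lastCases hlast (fun j => ?_) j
        exact hfi (fun j => a j.castSucc) h2 j
      · intro v hv
        rcases Finset.mem_insert.1 hv with rfl | hv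
        · refine ⟨Fin.snoc 0 g, ?_⟩
          rw [Fin.sum_univ_castSucc]
          simp
        · obtain ⟨c, hc⟩ := hd v hv
          refine ⟨Fin.snoc c 0, ?_⟩
          rw [Fin.sum_univ_castSucc]
          simpa using hc

/-- **Generic freeness of `b / b'` over `R / P`** (elementary form): there are `f_1,…,f_r ∈ b`,
independent over `R / P` modulo `b'`, and one `g ∉ P` with `g b ⊆ ∑ R f_j + b'`. -/
theorem exists_generic_basis (P : Ideal R) [P.IsPrime] (b b' : Ideal R) (hfg : b.FG)
    (hP : ∀ p ∈ P, ∀ s ∈ b, p * s ∈ b') :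
    ∃ (r : ℕ) (f : Fin r → R) (g : R), g ∉ P ∧ Indep P b b' f ∧
      ∀ s ∈ b, ∃ a : Fin r → R, g * s - ∑ j, a j * f j ∈ b' := by
  classical
  obtain ⟨U, hU⟩ := hfg
  obtain ⟨r, f, g, hg, hf, hd⟩ := exists_indep_finset P b b' hP U
    (fun u hu => hU ▸ Ideal.subset_span hu)
  refine ⟨r, f, g, hg, hf, ?_⟩
  intro s hs
  rw [← hU] at hs
  refine Submodule.span_induction (p := fun s _ => ∃ a : Fin r → R, g * s - ∑ j, a j * f j ∈ b')
    ?_ ?_ ?_ ?_ hs
  · intro x hx
    exact hd x hx
  · exact ⟨0, by simp⟩
  · rintro x y _ _ ⟨a, ha⟩ ⟨c, hc⟩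
    refine ⟨fun j => a j + c j, ?_⟩
    have : g * (x + y) - ∑ j, (a j + c j) * f j
        = (g * x - ∑ j, a j * f j) + (g * y - ∑ j, c j * f j) := by
      simp only [add_mul, Finset.sum_add_distrib]
      ring
    rw [this]
    exact b'.add_mem ha hc
  · rintro t x _ ⟨a, ha⟩
    refine ⟨fun j => t * a j, ?_⟩
    have : g * (t • x) - ∑ j, t * a j * f j = t * (g * x - ∑ j, a j * f j) := by
      rw [mul_sub, Finset.mul_sum, smul_eq_mul]
      congr 1
      · ring
      · exact Finset.sum_congr rfl fun j _ => by ring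
    rw [this]
    exact b'.mul_mem_left _ ha

end Vale.Agent.P271.Gen
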