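import Mathlib

/-!
# P271 / GEN: dehomogenisation of a graded algebra

`dehom 𝒜 u : R →ₐ[k] S`, `s ↦ s * u ^ M` for `s ∈ 𝒜 M`.
-/

set_option linter.unusedSectionVars false

namespace Vale.Agent.P271.Gen

variable {k R S : Type*} [Field k] [CommRing R] [Algebra k R] (𝒜 : ℕ → Submodule k R)
  [GradedAlgebra 𝒜] [CommRing S] [Algebra k S] [Algebra R S] [IsScalarTower k R S] (u : S)

/-- `s ↦ s * u ^ i` on `𝒜 i` -/
noncomputable def dehomAux (i : ℕ) : 𝒜 i →ₗ[k] S :=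
  ((LinearMap.mulRight k (u ^ i)).comp (IsScalarTower.toAlgHom k R S).toLinearMap).comp
    (𝒜 i).subtype

theorem dehomAux_apply (i : ℕ) (s : 𝒜 i) : dehomAux 𝒜 u i s = algebraMap R S s * u ^ i := rfl

/-- the dehomogenisation on the direct sum -/
noncomputable def dehomSum : (DirectSum ℕ fun i => 𝒜 i) →ₐ[k] S :=
  DirectSum.toAlgebra k (fun i => 𝒜 i) (dehomAux 𝒜 u)
    (by
      rw [dehomAux_apply, pow_zero, mul_one]
      exact map_one _)
    (by
      intro i j a b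
      rw [dehomAux_apply, dehomAux_apply, dehomAux_apply, pow_add]
      change algebraMap R S ((a : R) * (b : R)) * (u ^ i * u ^ j) = _
      rw [map_mul]
      ring)

/-- the dehomogenisation -/
noncomputable def dehom : R →ₐ[k] S :=
  (dehomSum 𝒜 u).comp (DirectSum.decomposeAlgEquiv 𝒜).toAlgHom

theorem dehom_of_mem {M : ℕ} {s : R} (hs : s ∈ 𝒜 M) :
    dehom 𝒜 u s = algebraMap R S s * u ^ M := by
  have h1 : (DirectSum.decomposeAlgEquiv 𝒜) s = DirectSum.of (fun i => 𝒜 i) M ⟨s, hs⟩ :=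
    DirectSum.decompose_of_mem 𝒜 hs
  show dehomSum 𝒜 u ((DirectSum.decomposeAlgEquiv 𝒜) s) = _
  rw [h1]
  exact DirectSum.toAddMonoid_of (fun i => (dehomAux 𝒜 u i).toAddMonoidHom) M ⟨s, hs⟩

variable {𝒜 u}

/-- numerators of dehomogenised elements -/
theorem exists_numer {M0 : ℕ} {e e' : R} (he : e ∈ 𝒜 M0) (he' : e' ∈ 𝒜 (M0 + 1))
    (hu : algebraMap R S e' * u = algebraMap R S e) (s : R) :
    ∃ L0 : ℕ, ∀ L ≥ L0, ∃ N ∈ 𝒜 (L * (M0 + 1)),
      algebraMap R S N = algebraMap R S e' ^ L * dehom 𝒜 u s := by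
  classical
  induction s using DirectSum.Decomposition.inductionOn 𝒜 with
  | zero =>
    exact ⟨0, fun L _ => ⟨0, Submodule.zero_mem _, by simp⟩⟩
  | @homogeneous M s =>
    refine ⟨M, fun L hL => ⟨(s : R) * e ^ M * e' ^ (L - M), ?_, ?_⟩⟩
    · have h1 : (s : R) * e ^ M * e' ^ (L - M) ∈ 𝒜 (M + M • M0 + (L - M) • (M0 + 1)) :=
        SetLike.mul_mem_graded (SetLike.mul_mem_graded s.2 (SetLike.pow_mem_graded M he))
          (SetLike.pow_mem_graded (L - M) he')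
      have h2 : M + M • M0 + (L - M) • (M0 + 1) = L * (M0 + 1) := by
        obtain ⟨j, rfl⟩ := Nat.exists_eq_add_of_le hL
        rw [Nat.add_sub_cancel_left, smul_eq_mul, smul_eq_mul]
        ring
      rwa [h2] at h1
    · rw [dehom_of_mem 𝒜 u s.2, map_mul, map_mul, map_pow, map_pow, ← hu]
      obtain ⟨j, rfl⟩ := Nat.exists_eq_add_of_le hL
      rw [Nat.add_sub_cancel_left]
      ring
  | add s s' h h' =>
    obtain ⟨L1, h1⟩ := h
    obtain ⟨L2, h2⟩ := h'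
    refine ⟨max L1 L2, fun L hL => ?_⟩
    obtain ⟨N1, hN1, e1⟩ := h1 L (le_trans (le_max_left _ _) hL)
    obtain ⟨N2, hN2, e2⟩ := h2 L (le_trans (le_max_right _ _) hL)
    exact ⟨N1 + N2, Submodule.add_mem _ hN1 hN2, by rw [map_add, e1, e2, map_add]; ring⟩

end Vale.Agent.P271.Gen
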