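import Vale.Agent.P271.Gen.Main

/-!
# P271 / GEN, part 7: the graded pieces at a general point
-/

namespace Vale.Agent.P271.Gen

variable {k : Type*} [Field k] {R : Type*} [CommRing R] [Algebra k R]

/-- `θ : b → k⟦x⟧^r` is the Taylor expansion of classes in `b / b'`. -/
structure ThetaData {d : ℕ} (b b' : Ideal R) (t : Fin d → R) (χ : R →ₐ[k] k)
    (τ : R →ₐ[k] MvPowerSeries (Fin d) k) {r : ℕ}
    (θ : b →ₗ[k] (Fin r → MvPowerSeries (Fin d) k)) : Prop where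
  smul : ∀ (c : R) (x : b), θ (c • x) = fun j => τ c * θ x j
  ker : ∀ x : b, θ x = 0 ↔ (x : R) ∈ b'
  order : ∀ (e : ℕ) (x : b), (∀ j, (e : ℕ∞) ≤ (θ x j).order) →
    ∃ c : R, χ c ≠ 0 ∧ c * (x : R) ∈ cIdeal t χ ^ e * b ⊔ b'
  order_conv : ∀ (e : ℕ) (x : b) (c : R), χ c ≠ 0 → c * (x : R) ∈ cIdeal t χ ^ e * b ⊔ b' →
    ∀ j, (e : ℕ∞) ≤ (θ x j).order
  basis : ∃ f : Fin r → b, ∀ i, θ (f i) = Pi.single i 1

theorem PointData.tau_mem_cIdeal {d : ℕ} {P : Ideal R} {t : Fin d → R} {χ : R →ₐ[k] k}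
    {τ : R →ₐ[k] MvPowerSeries (Fin d) k} (hτ : PointData P t χ τ) (e : ℕ) {a : R}
    (ha : a ∈ cIdeal t χ ^ e) : (e : ℕ∞) ≤ (τ a).order := by
  induction e generalizing a with
  | zero => simp
  | succ e ih =>
    rw [pow_succ] at ha
    refine Submodule.mul_induction_on ha ?_ ?_
    · intro u hu v hv
      have h1 := ih hu
      have h2 : (1 : ℕ∞) ≤ (τ v).order := by
        rw [MvPowerSeries.one_le_order_iff_constCoeff_eq_zero, hτ.const]
        have : cIdeal t χ ≤ RingHom.ker χ.toRingHom := by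
          rw [cIdeal, Ideal.span_le]
          rintro _ ⟨j, rfl⟩
          simp [RingHom.mem_ker]
        exact this hv
      rw [map_mul]
      push_cast
      exact (add_le_add h1 h2).trans MvPowerSeries.le_order_mul
    · intro u v hu hv
      rw [map_add]
      exact (le_min hu hv).trans MvPowerSeries.min_order_le_add

/-- The linear map of Taylor coordinates, characterised by its values. -/
theorem exists_theta_aux {d : ℕ} {P : Ideal R} {b b' : Ideal R} {t : Fin d → R} {χ : R →ₐ[k] k}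
    {τ : R →ₐ[k] MvPowerSeries (Fin d) k} (hτ : PointData P t χ τ)
    {r : ℕ} {f : Fin r → R} {g : R} (hf : Indep P b b' f)
    (hgen : ∀ s ∈ b, ∃ a : Fin r → R, g * s - ∑ j, a j * f j ∈ b') (hχg : χ g ≠ 0) :
    ∃ θ : b →ₗ[k] (Fin r → MvPowerSeries (Fin d) k),
      ∀ (x : b) (c : Fin r → R), g * (x : R) - ∑ j, c j * f j ∈ b' →
        ∀ j, τ g * θ x j = τ (c j) := by
  classical
  obtain ⟨hfb, hfi⟩ := hf
  have hgen' : ∀ s : b, ∃ a : Fin r → R, g * (s : R) - ∑ j, a j * f j ∈ b' := fun s => hgen s s.2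
  choose a ha using hgen'
  have hτg : MvPowerSeries.constantCoeff (τ g) ≠ 0 := by rw [hτ.const]; exact hχg
  have hu1 : (τ g)⁻¹ * τ g = 1 := MvPowerSeries.inv_mul_cancel _ hτg
  generalize (τ g)⁻¹ = u at hu1
  -- uniqueness of coefficients modulo P
  have huniq : ∀ (c c' : Fin r → R), ∑ j, c j * f j - ∑ j, c' j * f j ∈ b' →
      ∀ j, τ (c j) = τ (c' j) := by
    intro c c' h j
    have h1 : ∑ j, (c j - c' j) * f j ∈ b' := by
      simpa [sub_mul, Finset.sum_sub_distrib] using h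
    have h2 := hfi _ h1 j
    rw [← sub_eq_zero, ← map_sub, hτ.ker_iff]
    exact h2
  have hval : ∀ (x : b) (c : Fin r → R), g * (x : R) - ∑ j, c j * f j ∈ b' →
      ∀ j, τ (a x j) = τ (c j) := by
    intro x c hc j
    refine huniq _ _ ?_ j
    have := b'.sub_mem hc (ha x)
    simpa using this
  refine ⟨{ toFun := fun x j => u * τ (a x j), map_add' := ?_, map_smul' := ?_ }, ?_⟩
  · intro x y
    funext j
    show u * τ (a (x + y) j) = u * τ (a x j) + u * τ (a y j)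
    rw [hval (x + y) (fun j => a x j + a y j) ?_ j, map_add, mul_add]
    have := b'.add_mem (ha x) (ha y)
    have e : g * ((x + y : b) : R) - ∑ j, (a x j + a y j) * f j
        = (g * (x : R) - ∑ j, a x j * f j) + (g * (y : R) - ∑ j, a y j * f j) := by
      simp only [add_mul, Finset.sum_add_distrib, Submodule.coe_add]
      ring
    rw [e]; exact this
  · intro c x
    funext j
    show u * τ (a (c • x) j) = c • (u * τ (a x j))
    rw [hval (c • x) (fun j => algebraMap k R c * a x j) ?_ j, map_mul, AlgHom.commutes,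
      Algebra.smul_def]
    · ring
    · have h1 := b'.mul_mem_left (algebraMap k R c) (ha x)
      have h2 : ((c • x : b) : R) = algebraMap k R c * (x : R) := by
        rw [← Algebra.smul_def]; rfl
      have e : g * ((c • x : b) : R) - ∑ j, algebraMap k R c * a x j * f j
          = algebraMap k R c * (g * (x : R) - ∑ j, a x j * f j) := by
        rw [mul_sub, Finset.mul_sum, h2]
        congr 1
        · ring
        · exact Finset.sum_congr rfl fun j _ => by ring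
      rw [e]; exact h1
  · intro x c hc j
    show τ g * (u * τ (a x j)) = τ (c j)
    rw [hval x c hc j, ← mul_assoc, mul_comm (τ g), hu1, one_mul]

section

variable {d : ℕ} {P : Ideal R} {b b' : Ideal R} {t : Fin d → R} {χ : R →ₐ[k] k}
  {τ : R →ₐ[k] MvPowerSeries (Fin d) k} {r : ℕ} {f : Fin r → R} {g : R}
  {θ : b →ₗ[k] (Fin r → MvPowerSeries (Fin d) k)}

theorem theta_smul (hgen : ∀ s ∈ b, ∃ a : Fin r → R, g * s - ∑ j, a j * f j ∈ b')
    (hτg : MvPowerSeries.constantCoeff (τ g) ≠ 0)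
    (hθ : ∀ (x : b) (c : Fin r → R), g * (x : R) - ∑ j, c j * f j ∈ b' →
        ∀ j, τ g * θ x j = τ (c j)) (c : R) (x : b) (j : Fin r) :
    θ (c • x) j = τ c * θ x j := by
  obtain ⟨a, ha⟩ := hgen x x.2
  have h1 := b'.mul_mem_left c ha
  have e : g * ((c • x : b) : R) - ∑ j, c * a j * f j
      = c * (g * (x : R) - ∑ j, a j * f j) := by
    rw [mul_sub, Finset.mul_sum, Submodule.coe_smul, smul_eq_mul]
    congr 1
    · ring
    · exact Finset.sum_congr rfl fun j _ => by ring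
  rw [← e] at h1
  have h2 := hθ (c • x) _ h1 j
  have h3 := hθ x a ha j
  rw [map_mul, ← h3] at h2
  have hg0 : τ g ≠ 0 := by intro h0; rw [h0] at hτg; simp at hτg
  have : τ g * θ (c • x) j = τ g * (τ c * θ x j) := by rw [h2]; ring
  exact mul_left_cancel₀ hg0 this

theorem theta_eq_zero (hτ : PointData P t χ τ)
    (hP : ∀ p ∈ P, ∀ x ∈ b, p * x ∈ b') (htf : ∀ g ∉ P, ∀ x ∈ b, g * x ∈ b' → x ∈ b')
    (hg : g ∉ P) (hf : Indep P b b' f)
    (hgen : ∀ s ∈ b, ∃ a : Fin r → R, g * s - ∑ j, a j * f j ∈ b')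
    (hτg : MvPowerSeries.constantCoeff (τ g) ≠ 0)
    (hθ : ∀ (x : b) (c : Fin r → R), g * (x : R) - ∑ j, c j * f j ∈ b' →
        ∀ j, τ g * θ x j = τ (c j)) (x : b) : θ x = 0 ↔ (x : R) ∈ b' := by
  have hg0 : τ g ≠ 0 := by intro h0; rw [h0] at hτg; simp at hτg
  constructor
  · intro h0
    obtain ⟨a, ha⟩ := hgen x x.2
    have h1 : ∀ j, a j ∈ P := by
      intro j
      rw [← hτ.ker_iff, ← hθ x a ha j, h0]
      simp
    have h2 : ∑ j, a j * f j ∈ b' := b'.sum_mem fun j _ => hP _ (h1 j) _ (hf.1 j)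
    have h3 : g * (x : R) ∈ b' := by
      have := b'.add_mem ha h2
      simpa using this
    exact htf g hg _ x.2 h3
  · intro hx
    funext j
    have h1 := hθ x 0 (by simpa using b'.mul_mem_left g hx) j
    rw [Pi.zero_apply, map_zero] at h1
    exact (mul_eq_zero.1 h1).resolve_left hg0

theorem theta_order (hτ : PointData P t χ τ) (hP : ∀ p ∈ P, ∀ x ∈ b, p * x ∈ b')
    (hf : Indep P b b' f)
    (hgen : ∀ s ∈ b, ∃ a : Fin r → R, g * s - ∑ j, a j * f j ∈ b') (hχg : χ g ≠ 0)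
    (hθ : ∀ (x : b) (c : Fin r → R), g * (x : R) - ∑ j, c j * f j ∈ b' →
        ∀ j, τ g * θ x j = τ (c j)) (e : ℕ) (x : b) (hx : ∀ j, (e : ℕ∞) ≤ (θ x j).order) :
    ∃ c : R, χ c ≠ 0 ∧ c * (x : R) ∈ cIdeal t χ ^ e * b ⊔ b' := by
  classical
  obtain ⟨a, ha⟩ := hgen x x.2
  have h1 : ∀ j, ∃ s : R, χ s ≠ 0 ∧ s * a j ∈ cIdeal t χ ^ e ⊔ P := by
    intro j
    refine hτ.order e _ ?_
    rw [← hθ x a ha j]
    exact (hx j).trans (le_add_self.trans MvPowerSeries.le_order_mul)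
  choose s hs hsa using h1
  refine ⟨g * ∏ j, s j, ?_, ?_⟩
  · rw [map_mul, map_prod]
    exact mul_ne_zero hχg (Finset.prod_ne_zero_iff.2 fun j _ => hs j)
  · have e1 : g * (∏ j, s j) * (x : R)
        = (∏ j, s j) * (g * (x : R) - ∑ j, a j * f j)
          + ∑ j, (∏ i, s i) * (a j * f j) := by
      rw [← Finset.mul_sum]; ring
    rw [e1]
    refine Ideal.add_mem _ (Ideal.mem_sup_right (b'.mul_mem_left _ ha)) ?_
    refine Ideal.sum_mem _ fun j _ => ?_
    have e2 : (∏ i, s i) * (a j * f j)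
        = (∏ i ∈ Finset.univ.erase j, s i) * ((s j * a j) * f j) := by
      rw [← Finset.prod_erase_mul Finset.univ s (Finset.mem_univ j)]; ring
    rw [e2]
    refine Ideal.mul_mem_left _ _ ?_
    obtain ⟨q, hq, p, hp, hqp⟩ := Submodule.mem_sup.1 (hsa j)
    rw [← hqp, add_mul]
    exact Ideal.add_mem _ (Ideal.mem_sup_left (Ideal.mul_mem_mul hq (hf.1 j)))
      (Ideal.mem_sup_right (hP _ hp _ (hf.1 j)))

theorem theta_order_conv (hτ : PointData P t χ τ) (hle : b' ≤ b)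
    (hsm : ∀ (c : R) (x : b), θ (c • x) = fun j => τ c * θ x j)
    (hker : ∀ x : b, θ x = 0 ↔ (x : R) ∈ b')
    (e : ℕ) (x : b) (c : R) (hc : χ c ≠ 0) (hcx : c * (x : R) ∈ cIdeal t χ ^ e * b ⊔ b')
    (j : Fin r) : (e : ℕ∞) ≤ (θ x j).order := by
  have hmain : ∀ z : R, z ∈ cIdeal t χ ^ e * b → ∃ hz : z ∈ b, ∀ j,
      (e : ℕ∞) ≤ (θ ⟨z, hz⟩ j).order := by
    intro z hz
    refine Submodule.mul_induction_on hz ?_ ?_
    · intro m hm n hn
      refine ⟨b.mul_mem_left _ hn, fun j => ?_⟩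
      have e3 : (⟨m * n, b.mul_mem_left _ hn⟩ : b) = m • (⟨n, hn⟩ : b) := rfl
      rw [e3, hsm]
      exact (hτ.tau_mem_cIdeal e hm).trans (le_self_add.trans MvPowerSeries.le_order_mul)
    · rintro x y ⟨hx, h1⟩ ⟨hy, h2⟩
      refine ⟨b.add_mem hx hy, fun j => ?_⟩
      have e5 : (⟨x + y, b.add_mem hx hy⟩ : b) = ⟨x, hx⟩ + ⟨y, hy⟩ := rfl
      rw [e5, map_add, Pi.add_apply]
      exact (le_min (h1 j) (h2 j)).trans MvPowerSeries.min_order_le_add
  obtain ⟨z, hz, w, hw, hzw⟩ := Submodule.mem_sup.1 hcx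
  obtain ⟨hzb, hzo⟩ := hmain z hz
  have hwb : w ∈ b := hle hw
  have e6 : c • x = (⟨z, hzb⟩ : b) + ⟨w, hwb⟩ := by
    ext; simp [hzw]
  have e7 : θ ⟨w, hwb⟩ = 0 := (hker ⟨w, hwb⟩).2 hw
  have e8 : θ ⟨z, hzb⟩ j = τ c * θ x j := by
    have := congrFun (hsm c x) j
    rw [← this, e6, map_add, e7, add_zero]
  have hcc : MvPowerSeries.constantCoeff (τ c) ≠ 0 := by rw [hτ.const]; exact hc
  have e9 : θ x j = (τ c)⁻¹ * θ ⟨z, hzb⟩ j := by
    rw [e8, ← mul_assoc, MvPowerSeries.inv_mul_cancel _ hcc, one_mul]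
  rw [e9]
  exact (hzo j).trans (le_add_self.trans MvPowerSeries.le_order_mul)

theorem theta_basis (hτg : MvPowerSeries.constantCoeff (τ g) ≠ 0) (hfb : ∀ j, f j ∈ b)
    (hθ : ∀ (x : b) (c : Fin r → R), g * (x : R) - ∑ j, c j * f j ∈ b' →
        ∀ j, τ g * θ x j = τ (c j)) (i : Fin r) : θ ⟨f i, hfb i⟩ = Pi.single i 1 := by
  have hg0 : τ g ≠ 0 := by intro h0; rw [h0] at hτg; simp at hτg
  funext j
  have h1 := hθ ⟨f i, hfb i⟩ (Pi.single i g) (by simp [Pi.single_apply]) j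
  by_cases hij : j = i
  · subst hij
    rw [Pi.single_eq_same] at h1 ⊢
    exact mul_left_cancel₀ hg0 (by rw [h1, mul_one])
  · rw [Pi.single_eq_of_ne hij, map_zero] at h1
    rw [Pi.single_eq_of_ne hij]
    exact (mul_eq_zero.1 h1).resolve_left hg0

theorem exists_theta (hτ : PointData P t χ τ) (hle : b' ≤ b)
    (hP : ∀ p ∈ P, ∀ x ∈ b, p * x ∈ b') (htf : ∀ g ∉ P, ∀ x ∈ b, g * x ∈ b' → x ∈ b')
    (hg : g ∉ P) (hf : Indep P b b' f)
    (hgen : ∀ s ∈ b, ∃ a : Fin r → R, g * s - ∑ j, a j * f j ∈ b') (hχg : χ g ≠ 0) :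
    ∃ θ : b →ₗ[k] (Fin r → MvPowerSeries (Fin d) k), ThetaData b b' t χ τ θ := by
  obtain ⟨θ, hθ⟩ := exists_theta_aux hτ hf hgen hχg
  have hτg : MvPowerSeries.constantCoeff (τ g) ≠ 0 := by rw [hτ.const]; exact hχg
  have hsm : ∀ (c : R) (x : b), θ (c • x) = fun j => τ c * θ x j :=
    fun c x => funext fun j => theta_smul hgen hτg hθ c x j
  have hker := theta_eq_zero hτ hP htf hg hf hgen hτg hθ
  exact ⟨θ, hsm, hker, theta_order hτ hP hf hgen hχg hθ,
    fun e x c hc hcx j => theta_order_conv hτ hle hsm hker e x c hc hcx j,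
    fun i => ⟨f i, hf.1 i⟩, theta_basis hτg hf.1 hθ⟩

end

/-- **The general point package.** -/
theorem exists_general_point [CharZero k] [Algebra.FiniteType k R] (P : Ideal R) [P.IsPrime]
    {d : ℕ} (t : Fin d → R) (hti : AlgebraicIndependent k fun j => Ideal.Quotient.mk P (t j))
    (htint : ∀ x : R ⧸ P,
      IsIntegral (Algebra.adjoin k (Set.range fun j => Ideal.Quotient.mk P (t j))) x)
    {ι : Type*} (s : Finset ι) (b b' : ι → Ideal R) (hle : ∀ i ∈ s, b' i ≤ b i)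
    (hP : ∀ i ∈ s, ∀ p ∈ P, ∀ x ∈ b i, p * x ∈ b' i)
    (htf : ∀ i ∈ s, ∀ g ∉ P, ∀ x ∈ b i, g * x ∈ b' i → x ∈ b' i) :
    ∃ (h : R) (r : ι → ℕ), h ∉ P ∧ ∀ χ : R →ₐ[k] k, (∀ p ∈ P, χ p = 0) → χ h ≠ 0 →
      ∃ (τ : R →ₐ[k] MvPowerSeries (Fin d) k)
        (θ : ∀ i, b i →ₗ[k] (Fin (r i) → MvPowerSeries (Fin d) k)),
        PointData P t χ τ ∧ ∀ i ∈ s, ThetaData (b i) (b' i) t χ τ (θ i) := by
  classical
  have : IsNoetherianRing R := Algebra.FiniteType.isNoetherianRing k R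
  obtain ⟨h, hh, hT⟩ := exists_taylor P t hti htint
  have hB : ∀ i : ι, ∃ (r : ℕ) (f : Fin r → R) (g : R), g ∉ P ∧ (i ∈ s → Indep P (b i) (b' i) f ∧
      ∀ x ∈ b i, ∃ a : Fin r → R, g * x - ∑ j, a j * f j ∈ b' i) := by
    intro i
    by_cases hi : i ∈ s
    · obtain ⟨r, f, g, hg, h1, h2⟩ := exists_generic_basis P (b i) (b' i)
        (IsNoetherian.noetherian (b i)) (hP i hi)
      exact ⟨r, f, g, hg, fun _ => ⟨h1, h2⟩⟩
    · exact ⟨0, Fin.elim0, h, hh, fun h' => absurd h' hi⟩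
  choose r f g hg hfg using hB
  refine ⟨h * ∏ i ∈ s, g i, r, ?_, ?_⟩
  · intro hcon
    rcases Ideal.IsPrime.mem_or_mem ‹P.IsPrime› hcon with hc | hc
    · exact hh hc
    · obtain ⟨i, -, hi⟩ := (Ideal.IsPrime.prod_mem_iff).1 hc
      exact hg i hi
  · intro χ hχP hχh
    rw [map_mul, map_prod] at hχh
    obtain ⟨τ, hτ⟩ := hT χ hχP (left_ne_zero_of_mul hχh)
    have hχg : ∀ i ∈ s, χ (g i) ≠ 0 := by
      intro i hi h0
      exact right_ne_zero_of_mul hχh (Finset.prod_eq_zero hi h0)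
    have hθ : ∀ i, ∃ θ : b i →ₗ[k] (Fin (r i) → MvPowerSeries (Fin d) k),
        i ∈ s → ThetaData (b i) (b' i) t χ τ θ := by
      intro i
      by_cases hi : i ∈ s
      · obtain ⟨θ, h1⟩ := exists_theta hτ (hle i hi) (hP i hi) (htf i hi) (hg i) (hfg i hi).1
          (hfg i hi).2 (hχg i hi)
        exact ⟨θ, fun _ => h1⟩
      · exact ⟨0, fun h' => absurd h' hi⟩
    choose θ hθ using hθ
    exact ⟨τ, θ, hτ, fun i hi => hθ i hi⟩

end Vale.Agent.P271.Gen
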