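import Vale.Agent.P271.Gen.Slice
import Vale.Agent.P271.Gen.Theta

/-!
# P271 / GEN: the general point package for a graded ring

`R` graded, `P` a homogeneous prime, `e ∈ 𝒜 M0`, `e' ∈ 𝒜 (M0 + 1)` not in `P`.  The affine package
is applied to `R` itself and to the prime ideal `dh 𝒜 u P` of the slice `{e = e'}`.
-/

set_option linter.unusedSectionVars false

namespace Vale.Agent.P271.Gen

variable {k R : Type*} [Field k] [CommRing R] [Algebra k R]

/-- The Taylor expansion along `W` at a general point `φ` of the cone over `W = Z(P)`,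
in coordinates given by homogeneous elements `X j`. -/
structure HomPoint (𝒜 : ℕ → Submodule k R) {d : ℕ} (P : Ideal R) (e e' : R) (φ : R →ₐ[k] k)
    (X : Fin d → R) (τ : R →ₐ[k] MvPowerSeries (Fin d) k) : Prop where
  φe : φ e ≠ 0
  φe' : φ e' ≠ 0
  X_mem : ∃ n, ∀ j, X j ∈ 𝒜 n
  X_notMem : ∀ j, X j ∉ P
  X_zero : ∀ j, φ (X j) = 0
  ker_iff : ∀ M, ∀ s ∈ 𝒜 M, τ s = 0 ↔ s ∈ P
  const : ∀ M, ∀ s ∈ 𝒜 M, MvPowerSeries.constantCoeff (τ s) = (φ e / φ e') ^ M * φ s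
  tau_e : τ e = τ e'
  tau_X : ∃ L : ℕ, ∀ j, τ (X j) = τ e' ^ L * MvPowerSeries.X j
  jets : ∀ (E : ℕ) (f : MvPowerSeries (Fin d) k), ∃ a : R, (E : ℕ∞) ≤ (τ a - f).order
  order : ∀ M, ∀ s ∈ 𝒜 M, ∀ E : ℕ, (E : ℕ∞) ≤ (τ s).order →
    ∃ N, ∃ c ∈ 𝒜 N, φ c ≠ 0 ∧ c * s ∈ Ideal.span (Set.range X) ^ E ⊔ P

/-- Coordinates of `b / b'` at the general point `φ` of `W`. -/
structure HomTheta (𝒜 : ℕ → Submodule k R) {d : ℕ} (b b' : Ideal R) (φ : R →ₐ[k] k)
    (X : Fin d → R) (τ : R →ₐ[k] MvPowerSeries (Fin d) k) {r : ℕ}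
    (θ : b →ₗ[k] (Fin r → MvPowerSeries (Fin d) k)) : Prop where
  smul : ∀ (a : R) (x : b), θ (a • x) = fun l => τ a * θ x l
  ker_iff : ∀ M, ∀ x : b, (x : R) ∈ 𝒜 M → (θ x = 0 ↔ (x : R) ∈ b')
  order : ∀ M, ∀ x : b, (x : R) ∈ 𝒜 M → ∀ E : ℕ, (∀ l, (E : ℕ∞) ≤ (θ x l).order) →
    ∃ N, ∃ c ∈ 𝒜 N, φ c ≠ 0 ∧ c * (x : R) ∈ Ideal.span (Set.range X) ^ E * b ⊔ b'

theorem coe_eq_aeval_X {d : ℕ} (g : MvPolynomial (Fin d) k) :
    (g : MvPowerSeries (Fin d) k) =
      MvPolynomial.aeval (fun j => (MvPowerSeries.X j : MvPowerSeries (Fin d) k)) g := by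
  have h : MvPolynomial.coeToMvPowerSeries.algHom (σ := Fin d) k (R := k) =
      MvPolynomial.aeval (fun j => (MvPowerSeries.X j : MvPowerSeries (Fin d) k)) := by
    apply MvPolynomial.algHom_ext
    intro j
    simp
  have h2 := congrArg (fun F : MvPolynomial (Fin d) k →ₐ[k] MvPowerSeries (Fin d) k => F g) h
  simpa using h2

theorem exists_jets {d : ℕ} {P : Ideal R} {t : Fin d → R} {χ : R →ₐ[k] k}
    {τ : R →ₐ[k] MvPowerSeries (Fin d) k} (hτ : PointData P t χ τ) (E : ℕ)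
    (f : MvPowerSeries (Fin d) k) : ∃ a : R, (E : ℕ∞) ≤ (τ a - f).order := by
  classical
  set g : MvPolynomial (Fin d) k := MvPowerSeries.truncTotal E f with hg
  refine ⟨MvPolynomial.aeval (fun j => t j - algebraMap k R (χ (t j))) g, ?_⟩
  have h1 : τ (MvPolynomial.aeval (fun j => t j - algebraMap k R (χ (t j))) g) = g := by
    rw [coe_eq_aeval_X, MvPolynomial.comp_aeval_apply]
    congr 2
    funext j
    rw [map_sub, hτ.coord, AlgHom.commutes]
    have : algebraMap k (MvPowerSeries (Fin d) k) (χ (t j)) = MvPowerSeries.C (χ (t j)) := by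
      rw [MvPowerSeries.algebraMap_apply]; rfl
    rw [this, add_sub_cancel_left]
  rw [h1]
  refine MvPowerSeries.le_order fun m hm => ?_
  rw [map_sub, MvPolynomial.coeff_coe, hg, MvPowerSeries.coeff_truncTotal, sub_self]
  exact_mod_cast hm

section main

variable {S : Type*} [CommRing S] [Algebra k S] [Algebra R S] [IsScalarTower k R S]
  {𝒜 : ℕ → Submodule k R} [GradedAlgebra 𝒜] {e e' : R} [IsLocalization.Away (e * e') S] {u : S}

/-- the point of the slice -/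
theorem exists_chi (φ : R →ₐ[k] k) (h : φ e ≠ 0) (h' : φ e' ≠ 0)
    (hu : algebraMap R S e' * u = algebraMap R S e) :
    ∃ ψ : S →ₐ[k] k, (∀ x, ψ (algebraMap R S x) = φ x) ∧ ψ u = φ e / φ e' := by
  have hunit : ∀ y : Submonoid.powers (e * e'), IsUnit (φ y) := by
    rintro ⟨_, ⟨n, rfl⟩⟩
    simp only [map_pow, map_mul]
    exact (isUnit_iff_ne_zero.2 (mul_ne_zero h h')).pow n
  refine ⟨IsLocalization.liftAlgHom (M := Submonoid.powers (e * e')) (f := φ) hunit, ?_, ?_⟩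
  · intro x
    rw [IsLocalization.liftAlgHom_apply]
    exact IsLocalization.lift_eq _ _
  · rw [eq_div_iff h']
    have h1 := congrArg (IsLocalization.liftAlgHom (M := Submonoid.powers (e * e')) (f := φ)
      hunit) hu
    rw [map_mul, IsLocalization.liftAlgHom_apply, IsLocalization.liftAlgHom_apply,
      IsLocalization.liftAlgHom_apply, IsLocalization.lift_eq, IsLocalization.lift_eq] at h1
    rw [IsLocalization.liftAlgHom_apply, mul_comm]
    exact h1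

/-- decomposition in the slice gives a decomposition by homogeneous elements -/
theorem descend {d : ℕ} {b b' : Ideal R} {t : Fin d → R} {χ φ : R →ₐ[k] k} {X : Fin d → R}
    {M0 L0 : ℕ} (heM : e ∈ 𝒜 M0) (heM' : e' ∈ 𝒜 (M0 + 1))
    (hu : algebraMap R S e' * u = algebraMap R S e) (huu : IsUnit u) {ψ : S →ₐ[k] k}
    (hψ : ∀ x, ψ (algebraMap R S x) = φ x) (hχ : ∀ x, χ x = ψ (dehom 𝒜 u x))
    (he' : φ e' ≠ 0) (he : φ e ≠ 0)
    (hX : ∀ j, algebraMap R S (X j) =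
      algebraMap R S e' ^ L0 * dehom 𝒜 u (t j - algebraMap k R (χ (t j))))
    {M : ℕ} {x c : R} (hx : x ∈ 𝒜 M) (hc : χ c ≠ 0) (E : ℕ)
    (hmem : c * x ∈ cIdeal t χ ^ E * dh 𝒜 u b ⊔ dh 𝒜 u b') :
    ∃ N, ∃ c ∈ 𝒜 N, φ c ≠ 0 ∧ c * x ∈ Ideal.span (Set.range X) ^ E * b ⊔ b' := by
  obtain ⟨L, hL⟩ := exists_numer heM heM' hu c
  obtain ⟨N, hN, eN⟩ := hL L le_rfl
  -- the ideal of the slice is mapped into the ideal generated by the `X j`
  have h1 : (cIdeal t χ).map (dehom 𝒜 u).toRingHom ≤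
      (Ideal.span (Set.range X)).map (algebraMap R S) := by
    rw [cIdeal, Ideal.map_span, Ideal.span_le]
    rintro _ ⟨_, ⟨j, rfl⟩, rfl⟩
    have h2 : algebraMap R S (X j) ∈ (Ideal.span (Set.range X)).map (algebraMap R S) :=
      Ideal.mem_map_of_mem _ (Ideal.subset_span ⟨j, rfl⟩)
    rw [hX j, Ideal.unit_mul_mem_iff_mem _ ((isUnit_e' e).pow L0)] at h2
    exact h2
  have h2 : dehom 𝒜 u (c * x) ∈
      (Ideal.span (Set.range X) ^ E * b ⊔ b').map (algebraMap R S) := by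
    have h3 : (cIdeal t χ ^ E * dh 𝒜 u b ⊔ dh 𝒜 u b').map (dehom 𝒜 u).toRingHom ≤
        (Ideal.span (Set.range X) ^ E * b ⊔ b').map (algebraMap R S) := by
      rw [Ideal.map_sup, Ideal.map_mul, Ideal.map_pow, Ideal.map_sup, Ideal.map_mul,
        Ideal.map_pow]
      exact sup_le_sup (Ideal.mul_mono (Ideal.pow_right_mono h1 E) Ideal.map_comap_le)
        Ideal.map_comap_le
    exact h3 (Ideal.mem_map_of_mem _ hmem)
  rw [map_mul, dehom_of_mem 𝒜 u hx, ← mul_assoc, Ideal.mul_unit_mem_iff_mem _ (huu.pow M)] at h2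
  have h4 : algebraMap R S (N * x) ∈
      (Ideal.span (Set.range X) ^ E * b ⊔ b').map (algebraMap R S) := by
    rw [map_mul, eN, mul_assoc]
    exact Ideal.mul_mem_left _ _ h2
  rw [algebraMap_mem_iff e e'] at h4
  obtain ⟨n, hn⟩ := h4
  refine ⟨_, (e * e') ^ n * N, SetLike.mul_mem_graded
    (SetLike.pow_mem_graded n (SetLike.mul_mem_graded heM heM')) hN, ?_, ?_⟩
  · rw [map_mul, map_pow, map_mul]
    refine mul_ne_zero (pow_ne_zero n (mul_ne_zero he he')) ?_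
    rw [← hψ, eN, map_mul, map_pow, hψ, ← hχ]
    exact mul_ne_zero (pow_ne_zero _ he') hc
  · rw [mul_assoc]
    exact hn

end main

end Vale.Agent.P271.Gen
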