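import Vale.Agent.P271.Gen.HomMain
import Vale.Agent.P271.H70.Slice

/-!
# P271 / GEN: the general point theorem for a graded ring, final form
-/

set_option linter.unusedSectionVars false

namespace Vale.Agent.P271.Gen

variable {k R : Type*} [Field k] [CommRing R] [Algebra k R]

/-- **The general point theorem for a graded ring.**  `R` a graded algebra of finite type, `P` a
homogeneous prime, `dim R / P = d + 1`, `e ∈ 𝒜 M0` and `e' ∈ 𝒜 (M0 + 1)` not in `P`, and finitely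
many pairs of ideals `b' i ≤ b i` with `P * b i ≤ b' i` and `b i / b' i` torsion free over `R / P`,
`b i` homogeneous.  At all points `φ` of `Z(P)` outside of the zero set of a homogeneous `h ∉ P`
there are Taylor expansions `τ` of the elements of `R / P` and `θ i` of the elements of
`b i / b' i`. -/
theorem exists_general_point_hom [CharZero k] [Algebra.FiniteType k R]
    (𝒜 : ℕ → Submodule k R) [GradedAlgebra 𝒜] (P : Ideal R) [P.IsPrime]
    (hPh : P.IsHomogeneous 𝒜) {M0 : ℕ} {e e' : R}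
    (heM : e ∈ 𝒜 M0) (heM' : e' ∈ 𝒜 (M0 + 1)) (heP : e ∉ P) (heP' : e' ∉ P) {d : ℕ}
    (hd : Algebra.trdeg k (R ⧸ P) = ((d + 1 : ℕ) : Cardinal))
    {ι : Type*} (s : Finset ι) (b b' : ι → Ideal R)
    (hb : ∀ i ∈ s, (b i).IsHomogeneous 𝒜) (hle : ∀ i ∈ s, b' i ≤ b i)
    (hP : ∀ i ∈ s, ∀ p ∈ P, ∀ x ∈ b i, p * x ∈ b' i)
    (htf : ∀ i ∈ s, ∀ g ∉ P, ∀ x ∈ b i, g * x ∈ b' i → x ∈ b' i) :
    ∃ (N : ℕ) (h : R) (r : ι → ℕ), h ∈ 𝒜 N ∧ h ∉ P ∧
      ∀ φ : R →ₐ[k] k, (∀ p ∈ P, φ p = 0) → φ h ≠ 0 →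
        ∃ (X : Fin d → R) (τ : R →ₐ[k] MvPowerSeries (Fin d) k)
          (θ : ∀ i, b i →ₗ[k] (Fin (r i) → MvPowerSeries (Fin d) k)),
          HomPoint 𝒜 P e e' φ X τ ∧ ∀ i ∈ s, HomTheta 𝒜 (b i) (b' i) φ X τ (θ i) :=
  exists_general_point_hom' 𝒜 P heM heM' heP heP'
    (fun P' hP' hee hPP => @H70.exists_noether_slice k R _ _ _ 𝒜 _ _ P P' _ hP' hPh M0 e e' heM
      heM' heP heP' hee hPP d hd)
    s b b' hb hle hP htf

end Vale.Agent.P271.Gen
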