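import Vale.Agent.P271.Gen.Hom

/-!
# P271 / GEN: the general point theorem for a graded ring
-/

set_option linter.unusedSectionVars false

namespace Vale.Agent.P271.Gen

variable {k R : Type*} [Field k] [CommRing R] [Algebra k R]

section aux

variable {S : Type*} [CommRing S] [Algebra k S] [Algebra R S] [IsScalarTower k R S]
  {𝒜 : ℕ → Submodule k R} [GradedAlgebra 𝒜] {e e' : R} [IsLocalization.Away (e * e') S] {u : S}

theorem sub_mem_dh {P : Ideal R} {M0 : ℕ} (heM : e ∈ 𝒜 M0) (heM' : e' ∈ 𝒜 (M0 + 1))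
    (hu : algebraMap R S e' * u = algebraMap R S e) : e - e' ∈ dh 𝒜 u P := by
  rw [mem_dh, map_sub, dehom_of_mem 𝒜 u heM, dehom_of_mem 𝒜 u heM', pow_succ',
    ← mul_assoc, hu, sub_self]
  exact Submodule.zero_mem _

theorem numer_sub_mem_dh {P : Ideal R} {M0 L : ℕ} (heM' : e' ∈ 𝒜 (M0 + 1)) {x N : R}
    (hN : N ∈ 𝒜 (L * (M0 + 1)))
    (h : algebraMap R S N = algebraMap R S e' ^ L * dehom 𝒜 u x) :
    N - e' ^ L * x ∈ dh 𝒜 u P := by
  rw [mem_dh, map_sub, map_mul, map_pow, dehom_of_mem 𝒜 u hN, dehom_of_mem 𝒜 u heM', h, mul_pow,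
    ← pow_mul, mul_comm (M0 + 1) L]
  have : algebraMap R S e' ^ L * dehom 𝒜 u x * u ^ (L * (M0 + 1)) -
      algebraMap R S e' ^ L * u ^ (L * (M0 + 1)) * dehom 𝒜 u x = 0 := by ring
  rw [this]
  exact Submodule.zero_mem _

/-- the homogeneous package from the affine one -/
theorem homPoint_of {d : ℕ} {P : Ideal R} [P.IsPrime] {t : Fin d → R} {χ φ : R →ₐ[k] k}
    {τ : R →ₐ[k] MvPowerSeries (Fin d) k} (hτ : PointData (dh 𝒜 u P) t χ τ)
    {X : Fin d → R} {M0 L0 : ℕ} (heM : e ∈ 𝒜 M0) (heM' : e' ∈ 𝒜 (M0 + 1))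
    (heP : e ∉ P) (heP' : e' ∉ P)
    (hu : algebraMap R S e' * u = algebraMap R S e) (huu : IsUnit u) {ψ : S →ₐ[k] k}
    (hψ : ∀ x, ψ (algebraMap R S x) = φ x) (hψu : ψ u = φ e / φ e')
    (hχ : ∀ x, χ x = ψ (dehom 𝒜 u x)) (he' : φ e' ≠ 0) (he : φ e ≠ 0)
    (hXm : ∀ j, X j ∈ 𝒜 (L0 * (M0 + 1)))
    (hX : ∀ j, algebraMap R S (X j) =
      algebraMap R S e' ^ L0 * dehom 𝒜 u (t j - algebraMap k R (χ (t j)))) :
    HomPoint 𝒜 P e e' φ X τ := by
  have htau : ∀ j, τ (t j - algebraMap k R (χ (t j))) = MvPowerSeries.X j := by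
    intro j
    rw [map_sub, hτ.coord, AlgHom.commutes]
    have : algebraMap k (MvPowerSeries (Fin d) k) (χ (t j)) = MvPowerSeries.C (χ (t j)) := by
      rw [MvPowerSeries.algebraMap_apply]; rfl
    rw [this, add_sub_cancel_left]
  refine ⟨he, he', ⟨_, hXm⟩, ?_, ?_, ?_, ?_, ?_, ⟨L0, ?_⟩, exists_jets hτ, ?_⟩
  · intro j hj
    have h1 : t j - algebraMap k R (χ (t j)) ∈ dh 𝒜 u P := by
      rw [mem_dh_prime_numer heP heP' (hX j)]
      exact hj
    rw [← hτ.ker_iff, htau] at h1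
    have h2 := congrArg (MvPowerSeries.coeff (Finsupp.single j 1)) h1
    rw [MvPowerSeries.coeff_index_single_self_X, map_zero] at h2
    exact one_ne_zero h2
  · intro j
    rw [← hψ, hX, map_mul, ← hχ, map_sub, AlgHom.commutes]
    simp
  · intro M s hs
    rw [hτ.ker_iff, mem_dh_prime heP heP' huu hs]
  · intro M s hs
    rw [hτ.const, hχ, dehom_of_mem 𝒜 u hs, map_mul, hψ, map_pow, hψu, mul_comm]
  · have h := sub_mem_dh (P := P) heM heM' hu
    rw [← hτ.ker_iff, map_sub, sub_eq_zero] at h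
    exact h
  · intro j
    have h := numer_sub_mem_dh (P := P) heM' (hXm j) (hX j)
    rw [← hτ.ker_iff, map_sub, sub_eq_zero, map_mul, map_pow, htau] at h
    exact h
  · intro M s hs E hE
    obtain ⟨c, hc, hmem⟩ := hτ.order E s hE
    have h1 : c * s ∈ cIdeal t χ ^ E * dh 𝒜 u (⊤ : Ideal R) ⊔ dh 𝒜 u P := by
      have h2 : dh 𝒜 u (⊤ : Ideal R) = ⊤ := by
        rw [dh, Ideal.map_top, Ideal.comap_top]
      rw [h2, Ideal.mul_top]
      exact hmem
    obtain ⟨N, c', hc', hφ, h3⟩ := descend heM heM' hu huu hψ hχ he' he hX hs hc E h1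
    rw [Ideal.mul_top] at h3
    exact ⟨N, c', hc', hφ, h3⟩

theorem homTheta_of {d : ℕ} {P : Ideal R} [P.IsPrime] {t : Fin d → R} {χ φ : R →ₐ[k] k}
    {τ : R →ₐ[k] MvPowerSeries (Fin d) k} {b b' : Ideal R} {r : ℕ}
    {θ : dh 𝒜 u b →ₗ[k] (Fin r → MvPowerSeries (Fin d) k)}
    (hθ : ThetaData (dh 𝒜 u b) (dh 𝒜 u b') t χ τ θ)
    {X : Fin d → R} {M0 L0 : ℕ} (heM : e ∈ 𝒜 M0) (heM' : e' ∈ 𝒜 (M0 + 1))
    (heP : e ∉ P) (heP' : e' ∉ P)
    (hu : algebraMap R S e' * u = algebraMap R S e) (huu : IsUnit u) {ψ : S →ₐ[k] k}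
    (hψ : ∀ x, ψ (algebraMap R S x) = φ x)
    (hχ : ∀ x, χ x = ψ (dehom 𝒜 u x)) (he' : φ e' ≠ 0) (he : φ e ≠ 0)
    (hX : ∀ j, algebraMap R S (X j) =
      algebraMap R S e' ^ L0 * dehom 𝒜 u (t j - algebraMap k R (χ (t j))))
    (hb : b ≤ dh 𝒜 u b)
    (htf : ∀ g ∉ P, ∀ x ∈ b, g * x ∈ b' → x ∈ b') :
    HomTheta 𝒜 b b' φ X τ (θ.comp (Submodule.inclusion hb |>.restrictScalars k)) := by
  refine ⟨?_, ?_, ?_⟩
  · intro a x
    exact hθ.smul a (Submodule.inclusion hb x)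
  · intro M x hx
    have h1 := hθ.ker (Submodule.inclusion hb x)
    refine Iff.trans h1 ?_
    rw [Submodule.coe_inclusion, mem_dh_of_mem e e' huu hx]
    constructor
    · rintro ⟨n, hn⟩
      exact htf _ (pow_notMem heP heP' n) _ x.2 hn
    · intro h
      exact ⟨0, by simpa using h⟩
  · intro M x hx E hE
    obtain ⟨c, hc, hmem⟩ := hθ.order E (Submodule.inclusion hb x) hE
    exact descend heM heM' hu huu hψ hχ he' he hX hx hc E hmem

end aux

/-- **The general point theorem for a graded ring** (with the Noether normalisation of the slice as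
a hypothesis). -/
theorem exists_general_point_hom' [CharZero k] [Algebra.FiniteType k R]
    (𝒜 : ℕ → Submodule k R) [GradedAlgebra 𝒜] (P : Ideal R) [P.IsPrime] {M0 : ℕ} {e e' : R}
    (heM : e ∈ 𝒜 M0) (heM' : e' ∈ 𝒜 (M0 + 1)) (heP : e ∉ P) (heP' : e' ∉ P) {d : ℕ}
    (hNN : ∀ P' : Ideal R, P'.IsPrime → e - e' ∈ P' → (∀ M, ∀ s ∈ 𝒜 M, s ∈ P' ↔ s ∈ P) →
      ∃ t : Fin d → R, AlgebraicIndependent k (fun j => Ideal.Quotient.mk P' (t j)) ∧
        ∀ x : R ⧸ P',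
          IsIntegral (Algebra.adjoin k (Set.range fun j => Ideal.Quotient.mk P' (t j))) x)
    {ι : Type*} (s : Finset ι) (b b' : ι → Ideal R)
    (hb : ∀ i ∈ s, (b i).IsHomogeneous 𝒜) (hle : ∀ i ∈ s, b' i ≤ b i)
    (hP : ∀ i ∈ s, ∀ p ∈ P, ∀ x ∈ b i, p * x ∈ b' i)
    (htf : ∀ i ∈ s, ∀ g ∉ P, ∀ x ∈ b i, g * x ∈ b' i → x ∈ b' i) :
    ∃ (N : ℕ) (h : R) (r : ι → ℕ), h ∈ 𝒜 N ∧ h ∉ P ∧
      ∀ φ : R →ₐ[k] k, (∀ p ∈ P, φ p = 0) → φ h ≠ 0 →
        ∃ (X : Fin d → R) (τ : R →ₐ[k] MvPowerSeries (Fin d) k)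
          (θ : ∀ i, b i →ₗ[k] (Fin (r i) → MvPowerSeries (Fin d) k)),
          HomPoint 𝒜 P e e' φ X τ ∧ ∀ i ∈ s, HomTheta 𝒜 (b i) (b' i) φ X τ (θ i) := by
  classical
  let S := Localization.Away (e * e')
  obtain ⟨u, hu, huu⟩ := exists_u (S := S) e e'
  have hprime : (dh 𝒜 u P).IsPrime := dh_isPrime (S := S) heP heP'
  obtain ⟨t, hti, htint⟩ := hNN (dh 𝒜 u P) hprime (sub_mem_dh heM heM' hu)
    (fun M s hs => mem_dh_prime heP heP' huu hs)
  obtain ⟨h', r, hh', H⟩ := exists_general_point (dh 𝒜 u P) t hti htint s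
    (fun i => dh 𝒜 u (b i)) (fun i => dh 𝒜 u (b' i)) (fun i hi => dh_mono (hle i hi))
    (fun i hi p hp x hx => dh_mul (hP i hi) hp hx)
    (fun i hi g hg x hx hgx => dh_torsionFree heM heM' hu heP heP' (htf i hi) hg hx hgx)
  obtain ⟨L, hL⟩ := exists_numer (S := S) (u := u) heM heM' hu h'
  obtain ⟨N, hN, eN⟩ := hL L le_rfl
  refine ⟨_, e * e' * N, r, SetLike.mul_mem_graded (SetLike.mul_mem_graded heM heM') hN, ?_, ?_⟩
  · intro hcon
    rcases Ideal.IsPrime.mem_or_mem ‹P.IsPrime› hcon with h1 | h1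
    · rcases Ideal.IsPrime.mem_or_mem ‹P.IsPrime› h1 with h2 | h2
      · exact heP h2
      · exact heP' h2
    · exact hh' ((mem_dh_prime_numer heP heP' eN).2 h1)
  · intro φ hφP hφh
    rw [map_mul, map_mul] at hφh
    have he : φ e ≠ 0 := left_ne_zero_of_mul (left_ne_zero_of_mul hφh)
    have he' : φ e' ≠ 0 := right_ne_zero_of_mul (left_ne_zero_of_mul hφh)
    have hφN : φ N ≠ 0 := right_ne_zero_of_mul hφh
    obtain ⟨ψ, hψ, hψu⟩ := exists_chi (S := S) (u := u) φ he he' hu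
    set χ : R →ₐ[k] k := ψ.comp (dehom 𝒜 u) with hχdef
    have hχ : ∀ x, χ x = ψ (dehom 𝒜 u x) := fun x => rfl
    have hχP : ∀ p ∈ dh 𝒜 u P, χ p = 0 := by
      intro p hp
      rw [hχ]
      have h1 : P.map (algebraMap R S) ≤ RingHom.ker ψ.toRingHom := by
        rw [Ideal.map_le_iff_le_comap]
        intro x hx
        rw [Ideal.mem_comap, RingHom.mem_ker]
        exact (hψ x).trans (hφP x hx)
      exact h1 hp
    have hχh : χ h' ≠ 0 := by
      intro h0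
      apply hφN
      rw [← hψ, eN, map_mul, ← hχ, h0, mul_zero]
    obtain ⟨τ, θ, hτ, hθ⟩ := H χ hχP hχh
    -- the homogeneous coordinates
    choose L1 hL1 using fun j => exists_numer (S := S) (u := u) heM heM' hu
      (t j - algebraMap k R (χ (t j)))
    choose X hXm hX using fun j => hL1 j (Finset.univ.sup L1) (Finset.le_sup (Finset.mem_univ j))
    have hbi : ∀ i : ι, ∃ θ' : b i →ₗ[k] (Fin (r i) → MvPowerSeries (Fin d) k),
        i ∈ s → HomTheta 𝒜 (b i) (b' i) φ X τ θ' := by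
      intro i
      by_cases hi : i ∈ s
      · have h1 : b i ≤ dh 𝒜 u (b i) := le_dh_of_isHomogeneous (hb i hi)
        exact ⟨_, fun _ => homTheta_of (P := P) (hθ i hi) heM heM' heP heP' hu huu hψ hχ he' he hX
          h1 (htf i hi)⟩
      · exact ⟨0, fun h => absurd h hi⟩
    choose θ' hθ' using hbi
    exact ⟨X, τ, θ', homPoint_of hτ heM heM' heP heP' hu huu hψ hψu hχ he' he hXm hX, hθ'⟩

end Vale.Agent.P271.Gen
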