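import Vale.Agent.P271.Gen.Taylor

/-!
# P271 / GEN, part 5: the `x`-adic order of the Taylor expansion is the order at the point
-/

namespace Vale.Agent.P271.Gen

open Polynomial

variable {k : Type*} [Field k] {d : ℕ}
  {A : Type*} [CommRing A] [Algebra k A]
  [Algebra (MvPolynomial (Fin d) k) A] [IsScalarTower k (MvPolynomial (Fin d) k) A]


/-- The coordinate functions centred at the point `χ`. -/
noncomputable def tc (χ : A →ₐ[k] k) (j : Fin d) : A :=
  algebraMap (MvPolynomial (Fin d) k) A (MvPolynomial.X j) - algebraMap k A (χ (algebraMap (MvPolynomial (Fin d) k) A (MvPolynomial.X j)))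

/-- The ideal of the coordinates centred at `χ`. -/
noncomputable def tIdeal (χ : A →ₐ[k] k) : Ideal A := Ideal.span (Set.range (tc (d := d) χ))

omit [IsScalarTower k (MvPolynomial (Fin d) k) A] in
theorem tc_mem (χ : A →ₐ[k] k) (j : Fin d) : tc χ j ∈ tIdeal (d := d) χ :=
  Ideal.subset_span ⟨j, rfl⟩

theorem sub_mem_tIdeal (χ : A →ₐ[k] k) (p : (MvPolynomial (Fin d) k)) :
    algebraMap (MvPolynomial (Fin d) k) A p - algebraMap k A (χ (algebraMap (MvPolynomial (Fin d) k) A p)) ∈ tIdeal (d := d) χ := by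
  let π := Ideal.Quotient.mkₐ k (tIdeal (d := d) χ)
  have h : π.comp (IsScalarTower.toAlgHom k (MvPolynomial (Fin d) k) A)
      = (Algebra.ofId k _).comp (χ.comp (IsScalarTower.toAlgHom k (MvPolynomial (Fin d) k) A)) := by
    apply MvPolynomial.algHom_ext
    intro j
    have := tc_mem χ j
    rw [← Ideal.Quotient.eq_zero_iff_mem, tc, map_sub, sub_eq_zero] at this
    simpa [π, Algebra.ofId_apply] using this
  have h2 := congrArg (fun f => f p) h
  rw [← Ideal.Quotient.eq_zero_iff_mem, map_sub, sub_eq_zero]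
  simpa [π, Algebra.ofId_apply] using h2

theorem aeval_sub_mem_tIdeal (χ : A →ₐ[k] k) (y : A) (P : (MvPolynomial (Fin d) k)[X]) :
    aeval y P - aeval y (P.map (χ.toRingHom.comp (algebraMap (MvPolynomial (Fin d) k) A))) ∈ tIdeal (d := d) χ := by
  induction P using Polynomial.induction_on' with
  | add p q hp hq =>
    rw [Polynomial.map_add, map_add, map_add, add_sub_add_comm]
    exact add_mem hp hq
  | monomial n a =>
    rw [Polynomial.map_monomial, aeval_monomial, aeval_monomial, ← sub_mul]
    exact Ideal.mul_mem_right _ _ (sub_mem_tIdeal χ a)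

/-- Unramifiedness: the maximal ideal is generated by the coordinates, locally. -/
theorem exists_unram (y : A) (b : (MvPolynomial (Fin d) k))
    (hG : ∀ a : A, ∃ G : (MvPolynomial (Fin d) k)[X], algebraMap (MvPolynomial (Fin d) k) A b * a = aeval y G)
    (χ : A →ₐ[k] k) (hb : χ (algebraMap (MvPolynomial (Fin d) k) A b) ≠ 0)
    (hF : χ (aeval y (derivative (minpoly (MvPolynomial (Fin d) k) y))) ≠ 0) :
    ∃ s : A, χ s ≠ 0 ∧ ∀ a, χ a = 0 → s * a ∈ tIdeal (d := d) χ := by
  set χB : (MvPolynomial (Fin d) k) →+* k := χ.toRingHom.comp (algebraMap (MvPolynomial (Fin d) k) A) with hχB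
  have hev : ∀ P : (MvPolynomial (Fin d) k)[X], (P.map χB).eval (χ y) = χ (aeval y P) := by
    intro P
    rw [eval_map, aeval_def]
    exact (Polynomial.hom_eval₂ P (algebraMap (MvPolynomial (Fin d) k) A) χ.toRingHom y).symm
  have hroot : ((minpoly (MvPolynomial (Fin d) k) y).map χB).IsRoot (χ y) := by
    rw [IsRoot.def, hev, minpoly.aeval, map_zero]
  obtain ⟨G0, hG0⟩ := Polynomial.dvd_iff_isRoot.2 hroot
  have hG0y : G0.eval (χ y) ≠ 0 := by
    have h1 : ((minpoly (MvPolynomial (Fin d) k) y).map χB).derivative.eval (χ y) = G0.eval (χ y) := by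
      rw [hG0]; simp [derivative_mul]
    rw [← h1, derivative_map, hev]
    exact hF
  have haev : ∀ Q : k[X], χ (aeval y Q) = Q.eval (χ y) := by
    intro Q
    rw [← Polynomial.aeval_algHom_apply, Polynomial.coe_aeval_eq_eval]
  have hyG0 : (y - algebraMap k A (χ y)) * aeval y G0 ∈ tIdeal (d := d) χ := by
    have h1 := aeval_sub_mem_tIdeal χ y (minpoly (MvPolynomial (Fin d) k) y)
    rw [minpoly.aeval, zero_sub, neg_mem_iff, hG0, map_mul] at h1
    simpa using h1
  refine ⟨algebraMap (MvPolynomial (Fin d) k) A b * aeval y G0, ?_, ?_⟩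
  · rw [map_mul, haev]
    exact mul_ne_zero hb hG0y
  · intro a ha
    obtain ⟨P, hP⟩ := hG a
    have h1 := aeval_sub_mem_tIdeal χ y P
    have hr : (P.map χB).IsRoot (χ y) := by
      rw [IsRoot.def, hev, ← hP, map_mul, ha, mul_zero]
    obtain ⟨H, hH⟩ := Polynomial.dvd_iff_isRoot.2 hr
    have h2 : aeval y (P.map χB) = (y - algebraMap k A (χ y)) * aeval y H := by
      rw [hH, map_mul]; simp
    have e : algebraMap (MvPolynomial (Fin d) k) A b * aeval y G0 * a
        = aeval y G0 * (aeval y P - aeval y (P.map χB))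
          + aeval y H * ((y - algebraMap k A (χ y)) * aeval y G0) := by
      rw [h2]
      have : algebraMap (MvPolynomial (Fin d) k) A b * aeval y G0 * a = aeval y G0 * (algebraMap (MvPolynomial (Fin d) k) A b * a) := by ring
      rw [this, hP]
      ring
    rw [e]
    exact add_mem (Ideal.mul_mem_left _ _ h1) (Ideal.mul_mem_left _ _ hyG0)

omit [IsScalarTower k (MvPolynomial (Fin d) k) A] in
/-- Elements of `(t - c)^e` are values of homogeneous polynomials of degree `e`. -/
theorem exists_homog (χ : A →ₐ[k] k) (e : ℕ) {x : A} (hx : x ∈ (tIdeal (d := d) χ) ^ e) :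
    ∃ Q : MvPolynomial (Fin d) A, Q.IsHomogeneous e ∧ MvPolynomial.eval (tc χ) Q = x := by
  induction e generalizing x with
  | zero => exact ⟨MvPolynomial.C x, MvPolynomial.isHomogeneous_C _ _, by simp⟩
  | succ e ih =>
    rw [pow_succ] at hx
    refine Submodule.mul_induction_on hx ?_ ?_
    · intro q hq r hr
      obtain ⟨Q, hQ, hQe⟩ := ih hq
      have hr' : r ∈ Submodule.span A (Set.range (tc (d := d) χ)) := hr
      rw [Submodule.mem_span_range_iff_exists_fun] at hr'
      obtain ⟨c, hc⟩ := hr'
      refine ⟨Q * ∑ j, MvPolynomial.C (c j) * MvPolynomial.X j, ?_, ?_⟩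
      · refine hQ.mul ?_
        refine MvPolynomial.IsHomogeneous.sum _ _ _ fun j _ => ?_
        have := (MvPolynomial.isHomogeneous_C (Fin d) (c j)).mul (MvPolynomial.isHomogeneous_X A j)
        simpa using this
      · rw [map_mul, hQe, map_sum]
        congr 1
        rw [← hc]
        simp
    · rintro u v ⟨Q, hQ, hQe⟩ ⟨Q', hQ', hQe'⟩
      exact ⟨Q + Q', hQ.add hQ', by rw [map_add, hQe, hQe']⟩

/-- **The `x`-adic order controls membership in powers of the coordinate ideal.** -/
theorem exists_mul_mem_pow (y : A) (b : (MvPolynomial (Fin d) k))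
    (hG : ∀ a : A, ∃ G : (MvPolynomial (Fin d) k)[X], algebraMap (MvPolynomial (Fin d) k) A b * a = aeval y G)
    (χ : A →ₐ[k] k) (hb : χ (algebraMap (MvPolynomial (Fin d) k) A b) ≠ 0)
    (hF : χ (aeval y (derivative (minpoly (MvPolynomial (Fin d) k) y))) ≠ 0)
    (τ : A →ₐ[k] (MvPowerSeries (Fin d) k))
    (hτp : ∀ p : (MvPolynomial (Fin d) k), τ (algebraMap (MvPolynomial (Fin d) k) A p) = psi (fun j => χ (algebraMap (MvPolynomial (Fin d) k) A (MvPolynomial.X j))) p)
    (hτc : ∀ a, MvPowerSeries.constantCoeff (τ a) = χ a) (e : ℕ) (a : A)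
    (ha : (e : ℕ∞) ≤ (τ a).order) :
    ∃ s : A, χ s ≠ 0 ∧ s * a ∈ (tIdeal (d := d) χ) ^ e := by
  classical
  obtain ⟨s0, hs0, hs0m⟩ := exists_unram y b hG χ hb hF
  have hτt : ∀ j, τ (tc χ j) = MvPowerSeries.X j := by
    intro j
    rw [tc, map_sub, hτp, psi_X, AlgHom.commutes, MvPowerSeries.algebraMap_apply]
    simp
  -- one step
  have step : ∀ (e : ℕ) (x : A), x ∈ (tIdeal (d := d) χ) ^ e → ((e + 1 : ℕ) : ℕ∞) ≤ (τ x).order →
      s0 * x ∈ (tIdeal (d := d) χ) ^ (e + 1) := by
    intro e x hx hord
    obtain ⟨Q, hQ, hQx⟩ := exists_homog χ e hx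
    have hx2 : x = ∑ n ∈ Q.support, MvPolynomial.coeff n Q * ∏ j, tc χ j ^ n j := by
      rw [← hQx, MvPolynomial.eval_eq']
    have hcoef : ∀ n ∈ Q.support, χ (MvPolynomial.coeff n Q) = 0 := by
      intro n hn
      have hdeg : Finsupp.degree n = e := by
        have := hQ (MvPolynomial.mem_support_iff.1 hn)
        rw [Finsupp.degree_eq_weight_one]
        exact this
      have h0 : MvPowerSeries.coeff n (τ x) = 0 :=
        MvPowerSeries.coeff_of_lt_order (lt_of_lt_of_le
          (Nat.cast_lt.2 (by rw [hdeg]; exact Nat.lt_succ_self e)) hord)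
      have hprod : ∀ n' : Fin d →₀ ℕ, τ (∏ j, tc χ j ^ n' j) = MvPowerSeries.monomial n' 1 := by
        intro n'
        rw [map_prod]
        simp only [map_pow, hτt]
        rw [MvPowerSeries.monomial_one_eq]
        simp [Finsupp.prod_fintype]
      rw [hx2, map_sum, map_sum] at h0
      rw [Finset.sum_eq_single n] at h0
      · rw [map_mul, hprod] at h0
        have := MvPowerSeries.coeff_add_mul_monomial (R := k) (0 : Fin d →₀ ℕ) n
          (τ (MvPolynomial.coeff n Q)) 1
        rw [zero_add] at this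
        rw [this, mul_one] at h0
        rw [← hτc]
        exact h0
      · intro n' hn' hne
        have hdeg' : Finsupp.degree n' = e := by
          have := hQ (MvPolynomial.mem_support_iff.1 hn')
          rw [Finsupp.degree_eq_weight_one]
          exact this
        rw [map_mul, hprod, MvPowerSeries.coeff_mul_monomial]
        rw [if_neg]
        intro hle
        apply hne
        refine le_antisymm hle ?_
        obtain ⟨r, hr⟩ := exists_add_of_le hle
        have : Finsupp.degree r = 0 := by
          have := congrArg Finsupp.degree hr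
          rw [map_add, hdeg, hdeg'] at this
          omega
        rw [Finsupp.degree_eq_zero_iff] at this
        rw [hr, this, add_zero]
      · intro hn'
        exact absurd hn hn'
    rw [hx2, Finset.mul_sum]
    refine sum_mem fun n hn => ?_
    have hdeg : ∑ j, n j = e := by
      have h1 : Finsupp.degree n = e := by
        have := hQ (MvPolynomial.mem_support_iff.1 hn)
        rw [Finsupp.degree_eq_weight_one]
        exact this
      rw [← h1, Finsupp.degree_eq_sum]
    have hcomm : s0 * (MvPolynomial.coeff n Q * ∏ j, tc χ j ^ n j)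
        = (∏ j, tc χ j ^ n j) * (s0 * MvPolynomial.coeff n Q) := by ring
    rw [hcomm, pow_succ]
    refine Ideal.mul_mem_mul ?_ (hs0m _ (hcoef n hn))
    rw [← hdeg, ← Finset.prod_pow_eq_pow_sum]
    exact Ideal.prod_mem_prod fun j _ => Ideal.pow_mem_pow (tc_mem χ j) _
  induction e with
  | zero => exact ⟨1, by simp, by simp⟩
  | succ e ih =>
    obtain ⟨s, hs, hsa⟩ := ih (le_trans (Nat.cast_le.2 (Nat.le_succ e)) ha)
    refine ⟨s0 * s, by rw [map_mul]; exact mul_ne_zero hs0 hs, ?_⟩
    rw [mul_assoc]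
    refine step e (s * a) hsa ?_
    rw [map_mul]
    exact le_trans (le_trans ha le_add_self) MvPowerSeries.le_order_mul

end Vale.Agent.P271.Gen
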