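import Vale.Agent.P271.Gen.Basis
import Vale.Agent.P271.Gen.Jets

/-!
# P271 / GEN, part 6: the general point package

`R` a finitely generated algebra over a field `k` of characteristic zero, `P` a prime ideal,
`t_1,…,t_d ∈ R` whose classes form a Noether normalisation of `R / P`, and finitely many pairs of
ideals `b' i ≤ b i` with `b i / b' i` killed by `P` and torsion free over `R / P`.
There is `h ∉ P` such that every closed point `χ` of `V(P)` with `χ h ≠ 0` has
* a Taylor expansion `τ : R → k⟦x_1,…,x_d⟧` with kernel exactly `P`, `τ (t_j) = t_j(χ) + x_j`;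
* for each `i` a `τ`-semilinear map `θ : b i → k⟦x⟧^{r i}` with kernel exactly `b' i`;
* orders in `x` = orders along the ideal `(t_j - t_j(χ))_j` (locally at `χ`).
-/

namespace Vale.Agent.P271.Gen

open Polynomial

variable {k : Type*} [Field k] {R : Type*} [CommRing R] [Algebra k R]

/-- The ideal `(t_j - t_j(χ))_j` of `R`. -/
noncomputable def cIdeal {d : ℕ} (t : Fin d → R) (χ : R →ₐ[k] k) : Ideal R :=
  Ideal.span (Set.range fun j => t j - algebraMap k R (χ (t j)))

/-- What holds at a general closed point `χ`. -/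
structure PointData {d : ℕ} (P : Ideal R) (t : Fin d → R) (χ : R →ₐ[k] k)
    (τ : R →ₐ[k] MvPowerSeries (Fin d) k) : Prop where
  ker_iff : ∀ a, τ a = 0 ↔ a ∈ P
  coord : ∀ j, τ (t j) = MvPowerSeries.C (χ (t j)) + MvPowerSeries.X j
  const : ∀ a, MvPowerSeries.constantCoeff (τ a) = χ a
  order : ∀ (e : ℕ) (a : R), (e : ℕ∞) ≤ (τ a).order →
    ∃ s : R, χ s ≠ 0 ∧ s * a ∈ cIdeal t χ ^ e ⊔ P

theorem isIntegral_of_adjoin {A : Type*} [CommRing A] [Algebra k A] {d : ℕ} (t : Fin d → A)
    [Algebra (MvPolynomial (Fin d) k) A]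
    (halg : algebraMap (MvPolynomial (Fin d) k) A = (MvPolynomial.aeval t).toRingHom)
    (x : A) (hx : IsIntegral (Algebra.adjoin k (Set.range t)) x) :
    IsIntegral (MvPolynomial (Fin d) k) x := by
  have hr : Algebra.adjoin k (Set.range t) = (MvPolynomial.aeval t : _ →ₐ[k] A).range :=
    Algebra.adjoin_range_eq_range_aeval k t
  rw [hr] at hx
  obtain ⟨p, hp, hpx⟩ := hx
  let f : MvPolynomial (Fin d) k →+* (MvPolynomial.aeval t : _ →ₐ[k] A).range :=
    ((MvPolynomial.aeval t : _ →ₐ[k] A).rangeRestrict).toRingHom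
  have hf : Function.Surjective f := (MvPolynomial.aeval t : _ →ₐ[k] A).rangeRestrict_surjective
  have hlift : p ∈ Polynomial.lifts f := by
    rw [Polynomial.lifts_iff_coeff_lifts]
    intro n
    obtain ⟨q, hq⟩ := hf (p.coeff n)
    exact ⟨q, hq⟩
  obtain ⟨q, hq, -, hqm⟩ := Polynomial.lifts_and_natDegree_eq_and_monic hlift hp
  refine ⟨q, hqm, ?_⟩
  rw [← hq, eval₂_map] at hpx
  rw [← hpx]
  congr 1

/-- The Taylor part of the package. -/
theorem exists_taylor [CharZero k] [Algebra.FiniteType k R] (P : Ideal R) [P.IsPrime] {d : ℕ}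
    (t : Fin d → R) (hti : AlgebraicIndependent k fun j => Ideal.Quotient.mk P (t j))
    (htint : ∀ x : R ⧸ P,
      IsIntegral (Algebra.adjoin k (Set.range fun j => Ideal.Quotient.mk P (t j))) x) :
    ∃ h : R, h ∉ P ∧ ∀ χ : R →ₐ[k] k, (∀ p ∈ P, χ p = 0) → χ h ≠ 0 →
      ∃ τ : R →ₐ[k] MvPowerSeries (Fin d) k, PointData P t χ τ := by
  classical
  set tb : Fin d → R ⧸ P := fun j => Ideal.Quotient.mk P (t j) with htb
  let algB : Algebra (MvPolynomial (Fin d) k) (R ⧸ P) := (MvPolynomial.aeval tb).toRingHom.toAlgebra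
  have halg : algebraMap (MvPolynomial (Fin d) k) (R ⧸ P) = (MvPolynomial.aeval tb).toRingHom := rfl
  have : IsScalarTower k (MvPolynomial (Fin d) k) (R ⧸ P) := by
    apply IsScalarTower.of_algebraMap_eq
    intro x
    rw [halg]
    exact ((MvPolynomial.aeval tb : _ →ₐ[k] (R ⧸ P)).commutes x).symm
  have hint : Algebra.IsIntegral (MvPolynomial (Fin d) k) (R ⧸ P) :=
    ⟨fun x => isIntegral_of_adjoin tb halg x (htint x)⟩
  have : Algebra.FiniteType k (R ⧸ P) := inferInstance
  have : Algebra.FiniteType (MvPolynomial (Fin d) k) (R ⧸ P) :=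
    Algebra.FiniteType.of_restrictScalars_finiteType k _ _
  have : Module.Finite (MvPolynomial (Fin d) k) (R ⧸ P) :=
    Algebra.finite_iff_isIntegral_and_finiteType.2 ⟨hint, inferInstance⟩
  have : FaithfulSMul (MvPolynomial (Fin d) k) (R ⧸ P) := by
    rw [faithfulSMul_iff_algebraMap_injective]
    exact hti
  obtain ⟨y, b, hb, hy, hG, hF⟩ := exists_prim (B := MvPolynomial (Fin d) k) (A := R ⧸ P)
  have hbA : algebraMap (MvPolynomial (Fin d) k) (R ⧸ P) b ≠ 0 := by
    intro h0
    exact hb (FaithfulSMul.algebraMap_injective (MvPolynomial (Fin d) k) (R ⧸ P)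
      (by rw [h0, map_zero]))
  obtain ⟨h, hh⟩ := Ideal.Quotient.mk_surjective
    (algebraMap (MvPolynomial (Fin d) k) (R ⧸ P) b * aeval y (derivative (minpoly (MvPolynomial (Fin d) k) y)))
  refine ⟨h, ?_, ?_⟩
  · rw [← Ideal.Quotient.eq_zero_iff_mem, hh]
    exact mul_ne_zero hbA hF
  · intro χ hχP hχh
    let χA : (R ⧸ P) →ₐ[k] k := Ideal.Quotient.liftₐ P χ hχP
    have hχA : ∀ a : R, χA (Ideal.Quotient.mk P a) = χ a := fun a => rfl
    have h1 : χA (algebraMap (MvPolynomial (Fin d) k) (R ⧸ P) b) *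
        χA (aeval y (derivative (minpoly (MvPolynomial (Fin d) k) y))) ≠ 0 := by
      rw [← map_mul, ← hh, hχA]; exact hχh
    have hχb := left_ne_zero_of_mul h1
    have hχF := right_ne_zero_of_mul h1
    obtain ⟨τA, hinj, hτp, hτc⟩ := exists_tau y b hy hG χA hχb hχF
    have hX : ∀ j, algebraMap (MvPolynomial (Fin d) k) (R ⧸ P) (MvPolynomial.X j)
        = Ideal.Quotient.mk P (t j) := by
      intro j
      rw [halg]
      simp [htb]
    refine ⟨τA.comp (Ideal.Quotient.mkₐ k P), ?_, ?_, ?_, ?_⟩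
    · intro a
      simp only [AlgHom.comp_apply, Ideal.Quotient.mkₐ_eq_mk]
      rw [map_eq_zero_iff _ hinj, Ideal.Quotient.eq_zero_iff_mem]
    · intro j
      simp only [AlgHom.comp_apply, Ideal.Quotient.mkₐ_eq_mk]
      rw [← hX, hτp, psi_X, hX, hχA]
    · intro a
      simp only [AlgHom.comp_apply, Ideal.Quotient.mkₐ_eq_mk]
      rw [hτc, hχA]
    · intro e a ha
      simp only [AlgHom.comp_apply, Ideal.Quotient.mkₐ_eq_mk] at ha
      obtain ⟨s, hs, hsa⟩ := exists_mul_mem_pow y b hG χA hχb hχF τA hτp hτc e _ ha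
      obtain ⟨s', rfl⟩ := Ideal.Quotient.mk_surjective s
      refine ⟨s', by rw [← hχA]; exact hs, ?_⟩
      have hJ : tIdeal (d := d) χA = (cIdeal t χ).map (Ideal.Quotient.mk P) := by
        rw [tIdeal, cIdeal, Ideal.map_span, ← Set.range_comp]
        congr 1
        ext1 z
        constructor
        · rintro ⟨j, rfl⟩
          refine ⟨j, ?_⟩
          simp only [Function.comp_apply, map_sub, tc, hX, hχA]
          rfl
        · rintro ⟨j, rfl⟩
          refine ⟨j, ?_⟩
          simp only [Function.comp_apply, map_sub, tc, hX, hχA]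
          rfl
      rw [hJ, ← Ideal.map_pow, ← map_mul, ← Ideal.mem_comap,
        Ideal.comap_map_of_surjective _ Ideal.Quotient.mk_surjective] at hsa
      rwa [← RingHom.ker_eq_comap_bot, Ideal.mk_ker] at hsa

end Vale.Agent.P271.Gen
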