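import Mathlib

/-!
# P271 / GEN, part 2: Newton iteration in `k⟦x⟧`
-/

namespace Vale.Agent.P271.Gen

open MvPowerSeries Finsupp

variable {σ k : Type*} [Field k]

/-- Simplified Newton iteration. -/
noncomputable def newtonSeq (F : Polynomial (MvPowerSeries σ k)) (y0 c : k) :
    ℕ → MvPowerSeries σ k
  | 0 => MvPowerSeries.C y0
  | n + 1 => newtonSeq F y0 c n - MvPowerSeries.C c * F.eval (newtonSeq F y0 c n)

theorem constCoeff_eval (F : Polynomial (MvPowerSeries σ k)) (Y : MvPowerSeries σ k) :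
    constantCoeff (F.eval Y) = F.eval₂ constantCoeff (constantCoeff Y) :=
  (Polynomial.eval₂_at_apply _ _).symm

theorem newton_step {F : Polynomial (MvPowerSeries σ k)} {y0 c : k}
    (h0 : F.eval₂ constantCoeff y0 = 0) (h1 : c * F.derivative.eval₂ constantCoeff y0 = 1) (n : ℕ) :
    ((n + 1 : ℕ) : ℕ∞) ≤ (F.eval (newtonSeq F y0 c n)).order ∧
      constantCoeff (newtonSeq F y0 c n) = y0 := by
  induction n with
  | zero =>
    refine ⟨?_, by simp [newtonSeq]⟩
    have : constantCoeff (F.eval (newtonSeq F y0 c 0)) = 0 := by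
      rw [constCoeff_eval]; simpa [newtonSeq] using h0
    simpa using (one_le_order_iff_constCoeff_eq_zero).2 this
  | succ n ih =>
    obtain ⟨ih1, ih2⟩ := ih
    have hFc : constantCoeff (F.eval (newtonSeq F y0 c n)) = 0 := by
      rw [constCoeff_eval, ih2, h0]
    refine ⟨?_, ?_⟩
    · set Y := newtonSeq F y0 c n with hY
      have hstep : newtonSeq F y0 c (n + 1) = Y + (-(MvPowerSeries.C c * F.eval Y)) := by
        simp [newtonSeq, hY, sub_eq_add_neg]
      obtain ⟨q, hq⟩ := Polynomial.binomExpansion F Y (-(MvPowerSeries.C c * F.eval Y))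
      rw [hstep, hq]
      have e1 : F.eval Y + F.derivative.eval Y * -(MvPowerSeries.C c * F.eval Y)
          = (1 - MvPowerSeries.C c * F.derivative.eval Y) * F.eval Y := by ring
      have e2 : q * (-(MvPowerSeries.C c * F.eval Y)) ^ 2
          = (q * (MvPowerSeries.C c) ^ 2) * (F.eval Y * F.eval Y) := by ring
      rw [e1, e2]
      refine le_trans (le_min ?_ ?_) min_order_le_add
      · have hc : (1 : ℕ∞) ≤ (1 - MvPowerSeries.C c * F.derivative.eval Y).order := by
          rw [one_le_order_iff_constCoeff_eq_zero, map_sub, map_mul, constCoeff_eval, ih2]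
          simp [h1]
        calc ((n + 1 + 1 : ℕ) : ℕ∞) = 1 + ((n + 1 : ℕ) : ℕ∞) := by push_cast; ring
          _ ≤ _ := add_le_add hc ih1
          _ ≤ _ := le_order_mul
      · have : ((n + 1 + 1 : ℕ) : ℕ∞) ≤ ((n + 1 : ℕ) : ℕ∞) + ((n + 1 : ℕ) : ℕ∞) := by
          rw [← Nat.cast_add]; exact Nat.cast_le.2 (by omega)
        calc ((n + 1 + 1 : ℕ) : ℕ∞) ≤ ((n + 1 : ℕ) : ℕ∞) + ((n + 1 : ℕ) : ℕ∞) := this
          _ ≤ _ := add_le_add ih1 ih1
          _ ≤ _ := le_order_mul
          _ ≤ (q * (MvPowerSeries.C c) ^ 2).order + (F.eval Y * F.eval Y).order := le_add_self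
          _ ≤ _ := le_order_mul
    · simp [newtonSeq, ih2, hFc]

theorem newton_diff {F : Polynomial (MvPowerSeries σ k)} {y0 c : k}
    (h0 : F.eval₂ constantCoeff y0 = 0) (h1 : c * F.derivative.eval₂ constantCoeff y0 = 1)
    {d : σ →₀ ℕ} {n : ℕ} (hn : degree d ≤ n) :
    coeff d (newtonSeq F y0 c n) = coeff d (newtonSeq F y0 c (degree d)) := by
  induction n, hn using Nat.le_induction with
  | base => rfl
  | succ n hn ih =>
    rw [← ih]
    have h := (newton_step h0 h1 n).1
    have : coeff d (MvPowerSeries.C c * F.eval (newtonSeq F y0 c n)) = 0 := by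
      rw [coeff_C_mul, coeff_of_lt_order, mul_zero]
      exact lt_of_lt_of_le (Nat.cast_lt.2 (by omega)) h
    simp [newtonSeq, this]

/-- **Hensel's lemma for `k⟦x⟧`**: a simple root modulo the maximal ideal lifts. -/
theorem exists_root {F : Polynomial (MvPowerSeries σ k)} {y0 : k}
    (h0 : F.eval₂ constantCoeff y0 = 0) (h1 : F.derivative.eval₂ constantCoeff y0 ≠ 0) :
    ∃ Y : MvPowerSeries σ k, F.eval Y = 0 ∧ constantCoeff Y = y0 := by
  set c : k := (F.derivative.eval₂ constantCoeff y0)⁻¹ with hc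
  have h1' : c * F.derivative.eval₂ constantCoeff y0 = 1 := inv_mul_cancel₀ h1
  let Y : MvPowerSeries σ k := fun d => coeff d (newtonSeq F y0 c (degree d))
  have hYc : ∀ d, coeff d Y = coeff d (newtonSeq F y0 c (degree d)) := fun d => rfl
  have hY : ∀ n : ℕ, ((n + 1 : ℕ) : ℕ∞) ≤ (Y - newtonSeq F y0 c n).order := by
    intro n
    refine nat_le_order fun d hd => ?_
    rw [map_sub, hYc, newton_diff h0 h1' (n := n) (by omega), sub_self]
  refine ⟨Y, ?_, ?_⟩
  · rw [← order_eq_top_iff, ENat.eq_top_iff_forall_ge]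
    intro n
    obtain ⟨z, hz⟩ := Polynomial.evalSubFactor F Y (newtonSeq F y0 c n)
    have e : F.eval Y = z * (Y - newtonSeq F y0 c n) + F.eval (newtonSeq F y0 c n) := by
      rw [← hz]; ring
    rw [e]
    refine le_trans (le_min ?_ ?_) min_order_le_add
    · calc ((n : ℕ) : ℕ∞) ≤ ((n + 1 : ℕ) : ℕ∞) := Nat.cast_le.2 (by omega)
        _ ≤ _ := hY n
        _ ≤ z.order + (Y - newtonSeq F y0 c n).order := le_add_self
        _ ≤ _ := le_order_mul
    · exact (Nat.cast_le.2 (by omega : n ≤ n + 1)).trans (newton_step h0 h1' n).1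
  · rw [← coeff_zero_eq_constantCoeff_apply, hYc]
    simp [newtonSeq]

end Vale.Agent.P271.Gen
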