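import Mathlib

/-!
# P271 / GEN, part 3: a primitive element with a common denominator
-/

namespace Vale.Agent.P271.Gen

open Polynomial

attribute [local instance] FractionRing.liftAlgebra FractionRing.isScalarTower_liftAlgebra

variable {B A : Type*} [CommRing B] [IsDomain B] [IsIntegrallyClosed B] [CharZero B]
  [CommRing A] [IsDomain A] [Algebra B A] [Module.Finite B A] [FaithfulSMul B A]

theorem exists_prim : ∃ (y : A) (b : B), b ≠ 0 ∧ IsIntegral B y ∧
    (∀ a : A, ∃ G : B[X], algebraMap B A b * a = aeval y G) ∧
    aeval y (derivative (minpoly B y)) ≠ 0 := by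
  classical
  let L := FractionRing B
  let K := FractionRing A
  have : FaithfulSMul B K := by
    rw [faithfulSMul_iff_algebraMap_injective, IsScalarTower.algebraMap_eq B A K]
    exact (IsFractionRing.injective A K).comp (FaithfulSMul.algebraMap_injective B A)
  have hfin : FiniteDimensional L K := Module.Finite.of_isLocalization B A (nonZeroDivisors B)
  have : CharZero L := charZero_of_injective_algebraMap (IsFractionRing.injective B L)
  obtain ⟨α, hα⟩ := Field.exists_primitive_element L K
  obtain ⟨y, ⟨m, hm⟩, hy⟩ := IsLocalization.exists_mk'_eq (Algebra.algebraMapSubmonoid A (nonZeroDivisors B)) α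
  obtain ⟨b0, hb0, rfl⟩ := hm
  have hb0' : b0 ≠ 0 := nonZeroDivisors.ne_zero hb0
  have hyK : algebraMap A K y = algebraMap L K (algebraMap B L b0) * α := by
    rw [← IsScalarTower.algebraMap_apply B L K, IsScalarTower.algebraMap_apply B A K, ← hy]
    exact (IsLocalization.mk'_spec' K y _).symm
  have hyint : IsIntegral B y := Algebra.IsIntegral.isIntegral y
  have hb0L : algebraMap B L b0 ≠ 0 := by
    intro h
    exact hb0' (IsFractionRing.injective B L (by simpa using h))
  have htop : IntermediateField.adjoin L {algebraMap A K y} = ⊤ := by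
    rw [eq_top_iff, ← hα, IntermediateField.adjoin_simple_le_iff]
    have : α = algebraMap L K (algebraMap B L b0)⁻¹ * algebraMap A K y := by
      rw [hyK, ← mul_assoc, ← map_mul, inv_mul_cancel₀ hb0L, map_one, one_mul]
    rw [this]
    exact mul_mem (IntermediateField.algebraMap_mem _ _)
      (IntermediateField.mem_adjoin_simple_self L _)
  -- every element has a representation with its own denominator
  have hrep : ∀ a : A, ∃ (c : B) (G : B[X]), c ≠ 0 ∧ algebraMap B A c * a = aeval y G := by
    intro a
    have ha : algebraMap A K a ∈ Algebra.adjoin L {algebraMap A K y} := by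
      rw [← IntermediateField.adjoin_simple_toSubalgebra_of_isAlgebraic
        (IsAlgebraic.of_finite L (algebraMap A K y)), htop]
      trivial
    rw [Algebra.adjoin_singleton_eq_range_aeval] at ha
    obtain ⟨g, hg⟩ := ha
    obtain ⟨c, hcm, hc⟩ := IsLocalization.integerNormalization_spec (nonZeroDivisors B) g
    refine ⟨c, IsLocalization.integerNormalization (nonZeroDivisors B) g,
      nonZeroDivisors.ne_zero hcm, ?_⟩
    apply IsFractionRing.injective A K
    rw [map_mul, ← IsScalarTower.algebraMap_apply B A K]
    have h1 : algebraMap A K (aeval y (IsLocalization.integerNormalization (nonZeroDivisors B) g))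
        = aeval (algebraMap A K y) ((IsLocalization.integerNormalization (nonZeroDivisors B) g).map
            (algebraMap B L)) := by
      rw [aeval_map_algebraMap, aeval_algebraMap_apply]
    rw [h1, hc, ← hg, IsScalarTower.algebraMap_apply B L K]
    simp [Algebra.smul_def]
  choose c G hc hcG using hrep
  obtain ⟨s, hs⟩ := (inferInstance : Module.Finite B A).fg_top
  refine ⟨y, ∏ a ∈ s, c a, Finset.prod_ne_zero_iff.2 fun a _ => hc a, hyint, ?_, ?_⟩
  · intro a
    have ha : a ∈ Submodule.span B (s : Set A) := by rw [hs]; trivial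
    refine Submodule.span_induction
      (p := fun a _ => ∃ G : B[X], algebraMap B A (∏ a ∈ s, c a) * a = aeval y G) ?_ ?_ ?_ ?_ ha
    · intro x hx
      refine ⟨C (∏ a ∈ s.erase x, c a) * G x, ?_⟩
      rw [map_mul, ← hcG x, aeval_C, ← mul_assoc, ← map_mul, Finset.prod_erase_mul s c hx]
    · exact ⟨0, by simp⟩
    · rintro u v _ _ ⟨Gu, hu⟩ ⟨Gv, hv⟩
      exact ⟨Gu + Gv, by rw [mul_add, hu, hv, map_add]⟩
    · rintro r u _ ⟨Gu, hu⟩
      refine ⟨C r * Gu, ?_⟩
      rw [map_mul, ← hu, aeval_C, Algebra.smul_def]
      ring
  · intro h0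
    have hsep : (minpoly L (algebraMap A K y)).Separable :=
      (Irreducible.separable (minpoly.irreducible (IsIntegral.of_finite L _)))
    have h2 := hsep.aeval_derivative_ne_zero (minpoly.aeval L (algebraMap A K y))
    apply h2
    rw [minpoly.isIntegrallyClosed_eq_field_fractions L K hyint, derivative_map,
      aeval_map_algebraMap, aeval_algebraMap_apply, h0, map_zero]

end Vale.Agent.P271.Gen
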