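import Vale.Agent.P271.Gen.Dehom

/-!
# P271 / GEN: ideals of the dehomogenised ring

`dh 𝒜 I` is the inverse image of `I S` under the dehomogenisation `R → S = R[1/(e e')]`.
-/

set_option linter.unusedSectionVars false

namespace Vale.Agent.P271.Gen

variable {k R S : Type*} [Field k] [CommRing R] [Algebra k R] {𝒜 : ℕ → Submodule k R}
  [GradedAlgebra 𝒜] [CommRing S] [Algebra k S] [Algebra R S] [IsScalarTower k R S] {u : S}

variable (𝒜 u) in
/-- the ideal of the elements whose dehomogenisation lies in `I S` -/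
noncomputable def dh (I : Ideal R) : Ideal R :=
  (I.map (algebraMap R S)).comap (dehom 𝒜 u).toRingHom

theorem mem_dh {I : Ideal R} {x : R} : x ∈ dh 𝒜 u I ↔ dehom 𝒜 u x ∈ I.map (algebraMap R S) :=
  Iff.rfl

theorem dh_mono {I J : Ideal R} (h : I ≤ J) : dh 𝒜 u I ≤ dh 𝒜 u J :=
  Ideal.comap_mono (Ideal.map_mono h)

variable {e e' : R} [IsLocalization.Away (e * e') S]

theorem isUnit_e' (e : R) {e' : R} [IsLocalization.Away (e * e') S] :
    IsUnit (algebraMap R S e') := by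
  have h := IsLocalization.Away.algebraMap_isUnit (S := S) (e * e')
  rw [map_mul] at h
  exact isUnit_of_mul_isUnit_right h

theorem isUnit_e {e : R} (e' : R) [IsLocalization.Away (e * e') S] :
    IsUnit (algebraMap R S e) := by
  have h := IsLocalization.Away.algebraMap_isUnit (S := S) (e * e')
  rw [map_mul] at h
  exact isUnit_of_mul_isUnit_left h

/-- the unit `e / e'` -/
theorem exists_u (e e' : R) [IsLocalization.Away (e * e') S] :
    ∃ u : S, algebraMap R S e' * u = algebraMap R S e ∧ IsUnit u := by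
  obtain ⟨v, hv⟩ := isUnit_e' (S := S) e (e' := e')
  refine ⟨↑v⁻¹ * algebraMap R S e, ?_, ?_⟩
  · rw [← hv, ← mul_assoc, Units.mul_inv, one_mul]
  · exact (Units.isUnit _).mul (isUnit_e e')

theorem algebraMap_mem_iff (e e' : R) [IsLocalization.Away (e * e') S] {I : Ideal R} {x : R} :
    algebraMap R S x ∈ I.map (algebraMap R S) ↔ ∃ n : ℕ, (e * e') ^ n * x ∈ I := by
  rw [IsLocalization.algebraMap_mem_map_algebraMap_iff (Submonoid.powers (e * e'))]
  constructor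
  · rintro ⟨_, ⟨n, rfl⟩, h⟩
    exact ⟨n, h⟩
  · rintro ⟨n, h⟩
    exact ⟨_, ⟨n, rfl⟩, h⟩

theorem mem_dh_of_mem (e e' : R) [IsLocalization.Away (e * e') S] (hu : IsUnit u) {I : Ideal R}
    {M : ℕ} {x : R} (hx : x ∈ 𝒜 M) :
    x ∈ dh 𝒜 u I ↔ ∃ n : ℕ, (e * e') ^ n * x ∈ I := by
  rw [mem_dh, dehom_of_mem 𝒜 u hx, Ideal.mul_unit_mem_iff_mem _ (hu.pow M),
    algebraMap_mem_iff e e']

theorem mem_dh_of_numer (e : R) {e' : R} [IsLocalization.Away (e * e') S] {I : Ideal R}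
    {L : ℕ} {x N : R} (hN : algebraMap R S N = algebraMap R S e' ^ L * dehom 𝒜 u x) :
    x ∈ dh 𝒜 u I ↔ ∃ n : ℕ, (e * e') ^ n * N ∈ I := by
  rw [← algebraMap_mem_iff (S := S) e e', hN, mem_dh,
    Ideal.unit_mul_mem_iff_mem _ ((isUnit_e' e).pow L)]

theorem le_dh_of_isHomogeneous {I : Ideal R} (hI : I.IsHomogeneous 𝒜) : I ≤ dh 𝒜 u I := by
  classical
  intro x hx
  rw [mem_dh, ← DirectSum.sum_support_decompose 𝒜 x, map_sum]
  refine Ideal.sum_mem _ fun i _ => ?_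
  rw [dehom_of_mem 𝒜 u (SetLike.coe_mem _)]
  exact Ideal.mul_mem_right _ _ (Ideal.mem_map_of_mem _ (hI i hx))

variable {P : Ideal R} [P.IsPrime]

theorem pow_notMem {e e' : R} (he : e ∉ P) (he' : e' ∉ P) (n : ℕ) : (e * e') ^ n ∉ P := by
  intro h
  rcases Ideal.IsPrime.mem_or_mem ‹P.IsPrime› (Ideal.IsPrime.mem_of_pow_mem ‹_› n h) with h | h
  · exact he h
  · exact he' h

theorem dh_isPrime {e e' : R} [IsLocalization.Away (e * e') S] (he : e ∉ P) (he' : e' ∉ P) :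
    (dh 𝒜 u P).IsPrime := by
  have h1 : (P.map (algebraMap R S)).IsPrime := by
    refine IsLocalization.isPrime_of_isPrime_disjoint (Submonoid.powers (e * e')) S P
      ‹P.IsPrime› ?_
    rw [Set.disjoint_left]
    rintro _ ⟨n, rfl⟩ h
    exact pow_notMem he he' n h
  exact Ideal.comap_isPrime _ _

theorem mem_dh_prime {e e' : R} [IsLocalization.Away (e * e') S] (he : e ∉ P) (he' : e' ∉ P)
    (hu : IsUnit u) {M : ℕ} {x : R} (hx : x ∈ 𝒜 M) : x ∈ dh 𝒜 u P ↔ x ∈ P := by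
  rw [mem_dh_of_mem e e' hu hx]
  constructor
  · rintro ⟨n, h⟩
    rcases Ideal.IsPrime.mem_or_mem ‹P.IsPrime› h with h | h
    · exact absurd h (pow_notMem he he' n)
    · exact h
  · intro h
    exact ⟨0, by simpa using h⟩

theorem mem_dh_prime_numer {e e' : R} [IsLocalization.Away (e * e') S] (he : e ∉ P)
    (he' : e' ∉ P) {L : ℕ} {x N : R}
    (hN : algebraMap R S N = algebraMap R S e' ^ L * dehom 𝒜 u x) :
    x ∈ dh 𝒜 u P ↔ N ∈ P := by
  rw [mem_dh_of_numer e hN]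
  constructor
  · rintro ⟨n, h⟩
    rcases Ideal.IsPrime.mem_or_mem ‹P.IsPrime› h with h | h
    · exact absurd h (pow_notMem he he' n)
    · exact h
  · intro h
    exact ⟨0, by simpa using h⟩

/-- `P b ≤ b'` passes to the slice -/
theorem dh_mul {b b' : Ideal R} (hP : ∀ p ∈ P, ∀ x ∈ b, p * x ∈ b') {p x : R}
    (hp : p ∈ dh 𝒜 u P) (hx : x ∈ dh 𝒜 u b) : p * x ∈ dh 𝒜 u b' := by
  have h1 : P * b ≤ b' := Ideal.mul_le.2 hP
  rw [mem_dh, map_mul]
  have h2 := Ideal.mul_mem_mul (mem_dh.1 hp) (mem_dh.1 hx)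
  rw [← Ideal.map_mul] at h2
  exact Ideal.map_mono h1 h2

/-- torsion freeness passes to the slice -/
theorem dh_torsionFree {M0 : ℕ} {e e' : R} [IsLocalization.Away (e * e') S] (heM : e ∈ 𝒜 M0)
    (heM' : e' ∈ 𝒜 (M0 + 1)) (hu : algebraMap R S e' * u = algebraMap R S e) (he : e ∉ P)
    (he' : e' ∉ P) {b b' : Ideal R} (htf : ∀ g ∉ P, ∀ x ∈ b, g * x ∈ b' → x ∈ b') {g x : R}
    (hg : g ∉ dh 𝒜 u P) (hx : x ∈ dh 𝒜 u b) (hgx : g * x ∈ dh 𝒜 u b') : x ∈ dh 𝒜 u b' := by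
  obtain ⟨L1, h1⟩ := exists_numer heM heM' hu g
  obtain ⟨N1, hN1, e1⟩ := h1 L1 le_rfl
  obtain ⟨L2, h2⟩ := exists_numer heM heM' hu x
  obtain ⟨N2, hN2, e2⟩ := h2 L2 le_rfl
  rw [mem_dh_prime_numer he he' e1] at hg
  rw [mem_dh_of_numer e e2] at hx ⊢
  have e3 : algebraMap R S (N1 * N2) = algebraMap R S e' ^ (L1 + L2) * dehom 𝒜 u (g * x) := by
    rw [map_mul, e1, e2, map_mul]
    ring
  rw [mem_dh_of_numer e e3] at hgx
  obtain ⟨n, hn⟩ := hx
  obtain ⟨m, hm⟩ := hgx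
  refine ⟨n, htf ((e * e') ^ m * N1) ?_ _ hn ?_⟩
  · intro h
    rcases Ideal.IsPrime.mem_or_mem ‹P.IsPrime› h with h | h
    · exact pow_notMem he he' m h
    · exact hg h
  · have h3 : (e * e') ^ m * N1 * ((e * e') ^ n * N2) =
        (e * e') ^ n * ((e * e') ^ m * (N1 * N2)) := by ring
    rw [h3]
    exact Ideal.mul_mem_left _ _ hm

end Vale.Agent.P271.Gen
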