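import Vale.Agent.P271.Gen.Newton
import Vale.Agent.P271.Gen.Prim

/-!
# P271 / GEN, part 4: Taylor embedding of an affine domain at a general closed point
-/

namespace Vale.Agent.P271.Gen

open MvPowerSeries Polynomial

variable {k : Type*} [Field k] {d : ℕ}
  {A : Type*} [CommRing A] [Algebra k A]
  [Algebra (MvPolynomial (Fin d) k) A] [IsScalarTower k (MvPolynomial (Fin d) k) A]


/-- Taylor expansion of polynomials at the point `c`. -/
noncomputable def psi (c : Fin d → k) : (MvPolynomial (Fin d) k) →ₐ[k] (MvPowerSeries (Fin d) k) :=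
  MvPolynomial.aeval (fun j => MvPowerSeries.C (c j) + MvPowerSeries.X j)

theorem psi_X (c : Fin d → k) (j : Fin d) :
    psi c (MvPolynomial.X j) = MvPowerSeries.C (c j) + MvPowerSeries.X j := by
  simp [psi]

theorem psi_injective (c : Fin d → k) : Function.Injective (psi c) := by
  let tr : (MvPolynomial (Fin d) k) →ₐ[k] (MvPolynomial (Fin d) k) := MvPolynomial.aeval (fun j => MvPolynomial.C (c j) + MvPolynomial.X j)
  let tr' : (MvPolynomial (Fin d) k) →ₐ[k] (MvPolynomial (Fin d) k) := MvPolynomial.aeval (fun j => MvPolynomial.X j - MvPolynomial.C (c j))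
  have h1 : tr'.comp tr = AlgHom.id k (MvPolynomial (Fin d) k) := by
    apply MvPolynomial.algHom_ext
    intro j
    simp [tr, tr']
  have h2 : psi c = (MvPolynomial.coeToMvPowerSeries.algHom k).comp tr := by
    apply MvPolynomial.algHom_ext
    intro j
    simp [tr, psi]
  have h3 : Function.Injective tr := by
    intro x y hxy
    have := congrArg tr' hxy
    simpa [← AlgHom.comp_apply, h1] using this
  rw [h2]
  intro x y hxy
  apply h3
  apply MvPolynomial.coe_injective
  simpa using hxy

theorem constCoeff_psi (χ : A →ₐ[k] k) (p : (MvPolynomial (Fin d) k)) :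
    constantCoeff (psi (fun j => χ (algebraMap (MvPolynomial (Fin d) k) A (MvPolynomial.X j))) p)
      = χ (algebraMap (MvPolynomial (Fin d) k) A p) := by
  induction p using MvPolynomial.induction_on with
  | C a =>
    have : algebraMap (MvPolynomial (Fin d) k) A (MvPolynomial.C a) = algebraMap k A a := by
      rw [IsScalarTower.algebraMap_apply k (MvPolynomial (Fin d) k) A]; rfl
    rw [this]
    simp [psi, MvPowerSeries.algebraMap_apply]
  | add p q hp hq => simp only [map_add, hp, hq]
  | mul_X p j hp => simp only [map_mul, hp, psi_X, map_add]; simp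

theorem constCoeff_comp_psi (χ : A →ₐ[k] k) :
    (constantCoeff (σ := Fin d) (R := k)).comp
        (psi (fun j => χ (algebraMap (MvPolynomial (Fin d) k) A (MvPolynomial.X j)))).toRingHom
      = χ.toRingHom.comp (algebraMap (MvPolynomial (Fin d) k) A) := by
  refine RingHom.ext fun p => ?_
  exact constCoeff_psi χ p

variable [IsDomain A]

/-- The Taylor embedding at a closed point where the primitive element is unramified. -/
theorem exists_tau [Algebra.IsIntegral (MvPolynomial (Fin d) k) A] [FaithfulSMul (MvPolynomial (Fin d) k) A]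
    (y : A) (b : (MvPolynomial (Fin d) k)) (hy : IsIntegral (MvPolynomial (Fin d) k) y)
    (hG : ∀ a : A, ∃ G : (MvPolynomial (Fin d) k)[X], algebraMap (MvPolynomial (Fin d) k) A b * a = aeval y G)
    (χ : A →ₐ[k] k) (hb : χ (algebraMap (MvPolynomial (Fin d) k) A b) ≠ 0)
    (hF : χ (aeval y (derivative (minpoly (MvPolynomial (Fin d) k) y))) ≠ 0) :
    ∃ τ : A →ₐ[k] (MvPowerSeries (Fin d) k), Function.Injective τ ∧
      (∀ p : (MvPolynomial (Fin d) k), τ (algebraMap (MvPolynomial (Fin d) k) A p) = psi (fun j => χ (algebraMap (MvPolynomial (Fin d) k) A (MvPolynomial.X j))) p) ∧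
      ∀ a, constantCoeff (τ a) = χ a := by
  classical
  set c : Fin d → k := fun j => χ (algebraMap (MvPolynomial (Fin d) k) A (MvPolynomial.X j)) with hc
  set ψ : (MvPolynomial (Fin d) k) →+* (MvPowerSeries (Fin d) k) := (psi c).toRingHom with hψ
  have hcc : (constantCoeff (σ := Fin d) (R := k)).comp ψ = χ.toRingHom.comp (algebraMap (MvPolynomial (Fin d) k) A) :=
    constCoeff_comp_psi χ
  have hcc' : ∀ p : (MvPolynomial (Fin d) k), constantCoeff (ψ p) = χ (algebraMap (MvPolynomial (Fin d) k) A p) := constCoeff_psi χ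
  have key : ∀ P : (MvPolynomial (Fin d) k)[X], (P.map ψ).eval₂ MvPowerSeries.constantCoeff (χ y) = χ (aeval y P) := by
    intro P
    rw [eval₂_map, hcc, aeval_def]
    exact (Polynomial.hom_eval₂ P (algebraMap (MvPolynomial (Fin d) k) A) χ.toRingHom y).symm
  obtain ⟨Y, hY0, hYc⟩ := exists_root (F := (minpoly (MvPolynomial (Fin d) k) y).map ψ) (y0 := χ y)
    (by rw [key, minpoly.aeval, map_zero]) (by rw [derivative_map, key]; exact hF)
  let ev : (MvPolynomial (Fin d) k)[X] →+* (MvPowerSeries (Fin d) k) := eval₂RingHom ψ Y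
  have hevF : ev (minpoly (MvPolynomial (Fin d) k) y) = 0 := by
    rw [← hY0]; simp [ev, eval_map]
  have hev : ∀ P Q : (MvPolynomial (Fin d) k)[X], aeval y P = aeval y Q → ev P = ev Q := by
    intro P Q hPQ
    have : minpoly (MvPolynomial (Fin d) k) y ∣ P - Q := minpoly.isIntegrallyClosed_dvd hy (by rw [map_sub, hPQ, sub_self])
    obtain ⟨T, hT⟩ := this
    rw [← sub_eq_zero, ← map_sub, hT, map_mul, hevF, zero_mul]
  have hevC : ∀ p : (MvPolynomial (Fin d) k), ev (Polynomial.C p) = ψ p := by intro p; simp [ev]
  have hevcc : ∀ P : (MvPolynomial (Fin d) k)[X], constantCoeff (ev P) = χ (aeval y P) := by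
    intro P
    rw [← key]
    simp only [ev, coe_eval₂RingHom]
    rw [Polynomial.hom_eval₂, eval₂_map, hYc]
  choose G hG using hG
  have hub : constantCoeff (ψ b) ≠ 0 := by rw [hcc']; exact hb
  set u : (MvPowerSeries (Fin d) k) := (ψ b)⁻¹ with hu
  have hub1 : u * ψ b = 1 := MvPowerSeries.inv_mul_cancel _ hub
  have hval : ∀ (a : A) (P : (MvPolynomial (Fin d) k)[X]), aeval y P = algebraMap (MvPolynomial (Fin d) k) A b * a → u * ev (G a) = u * ev P := by
    intro a P hP
    rw [hev (G a) P (by rw [← hG, hP])]
  have hsq : ∀ (a : A) (P : (MvPolynomial (Fin d) k)[X]), aeval y P = algebraMap (MvPolynomial (Fin d) k) A b * (algebraMap (MvPolynomial (Fin d) k) A b * a) →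
      u * ev (G a) = u * (u * ev P) := by
    intro a P hP
    have : ev (Polynomial.C b * G a) = ev P := by
      apply hev
      rw [map_mul, ← hG, aeval_C, hP]
    rw [← this, map_mul, hevC]
    rw [← mul_assoc u (ψ b), hub1, one_mul]
  let τ0 : A →+* (MvPowerSeries (Fin d) k) :=
    { toFun := fun a => u * ev (G a)
      map_one' := by
        show u * ev (G 1) = 1
        rw [hval 1 (Polynomial.C b) (by simp), hevC, hub1]
      map_zero' := by
        show u * ev (G 0) = 0
        rw [hval 0 0 (by simp), map_zero, mul_zero]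
      map_add' := by
        intro a a'
        show u * ev (G (a + a')) = u * ev (G a) + u * ev (G a')
        rw [hval (a + a') (G a + G a') (by rw [map_add, ← hG, ← hG]; ring), map_add, mul_add]
      map_mul' := by
        intro a a'
        show u * ev (G (a * a')) = u * ev (G a) * (u * ev (G a'))
        rw [hsq (a * a') (G a * G a') (by rw [map_mul, ← hG, ← hG]; ring), map_mul]
        ring }
  have hτp : ∀ p : (MvPolynomial (Fin d) k), τ0 (algebraMap (MvPolynomial (Fin d) k) A p) = ψ p := by
    intro p
    show u * ev (G (algebraMap (MvPolynomial (Fin d) k) A p)) = ψ p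
    rw [hval (algebraMap (MvPolynomial (Fin d) k) A p) (Polynomial.C b * Polynomial.C p) (by simp), map_mul, hevC, hevC,
      ← mul_assoc, hub1, one_mul]
  let τ : A →ₐ[k] (MvPowerSeries (Fin d) k) :=
    { τ0 with
      commutes' := by
        intro r
        show τ0 (algebraMap k A r) = _
        rw [IsScalarTower.algebraMap_apply k (MvPolynomial (Fin d) k) A, hτp]
        exact (psi c).commutes r }
  have hτapp : ∀ a, τ a = u * ev (G a) := fun a => rfl
  refine ⟨τ, ?_, fun p => hτp p, ?_⟩
  · rw [injective_iff_map_eq_zero]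
    intro a ha
    by_contra hne
    have hI : RingHom.ker τ0 = ⊥ := by
      apply Ideal.eq_bot_of_comap_eq_bot (R := (MvPolynomial (Fin d) k))
      rw [eq_bot_iff]
      intro p hp
      rw [Ideal.mem_comap, RingHom.mem_ker, hτp] at hp
      have : p = 0 := psi_injective c (by rw [map_zero]; exact hp)
      simp [this]
    have : a ∈ RingHom.ker τ0 := ha
    rw [hI] at this
    exact hne (by simpa using this)
  · intro a
    rw [hτapp, map_mul, hevcc, ← hG, map_mul, ← mul_assoc]
    have : constantCoeff u * χ (algebraMap (MvPolynomial (Fin d) k) A b) = 1 := by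
      rw [← hcc', ← map_mul, hub1, map_one]
    rw [this, one_mul]

end Vale.Agent.P271.Gen
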